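import Vale.Agent.P354y.OpenB

set_option maxSynthPendingDepth 3

open Set Filter Topology

namespace Vale.Agent.P354

lemma NearM.add_T {B : P4 →L[ℝ] P4 →L[ℝ] ℝ} (h : NearM B) {w : P4} (hw : B w w < 0)
    (hw1 : 0 < w.1) {l : ℝ} (hl : 0 ≤ l) : B (w + l • Tv) (w + l • Tv) < 0 := by
  obtain ⟨h3, h4⟩ := h.T_le hw.le hw1
  have h5 : B Tv Tv < 0 := by
    have hTc : Tv ∈ cone (1 / 4) := by simp only [one_div, Tv, mem_cone, Prod.norm_mk, norm_zero, max_self, mul_one, inv_nonneg, Nat.ofNat_nonneg]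
    have := h.timelike_of_cone hTc
    have h2 : (Tv : P4).1 = 1 := rfl
    rw [h2] at this
    linarith only [this]
  have h6 : B (w + l • Tv) (w + l • Tv) = B w w + l * (B w Tv + B Tv w) + l ^ 2 * B Tv Tv := by
    rw [bil_left, map_add, map_add, map_smul, map_smul, smul_eq_mul, smul_eq_mul]
    ring
  rw [h6]
  have h7 : 0 ≤ ‖w‖ := norm_nonneg _
  have h8 : l * (B w Tv + B Tv w) ≤ 0 :=
    mul_nonpos_of_nonneg_of_nonpos hl (by linarith only [h3, h4, h7])
  have h9 : l ^ 2 * B Tv Tv ≤ 0 :=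
    mul_nonpos_of_nonneg_of_nonpos (by positivity) h5.le
  linarith only [hw, h8, h9]

lemma down_eq (z : P4) (a l : ℝ) (x : P3) :
    z - ((a - l, x) : P4) = (z - ((a, x) : P4)) + l • Tv := by
  refine Prod.ext ?_ ?_
  · show z.1 - (a - l) = (z.1 - a) + l * 1
    ring
  · show z.2 - x = (z.2 - x) + l • (0 : P3)
    simp only [smul_zero, add_zero]

lemma down_norm (T a : ℝ) (x : P3) : ‖((a, x) : P4) - ((T, x) : P4)‖ = |a - T| := by
  have : ((a, x) : P4) - ((T, x) : P4) = (a - T) • Tv := by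
    refine Prod.ext ?_ ?_
    · show a - T = (a - T) * 1
      ring
    · show x - x = (a - T) • (0 : P3)
      simp
  rw [this, norm_smul, norm_Tv, mul_one, Real.norm_eq_abs]

namespace SHyp

variable {K : Coef} {G : P4 → P4 →L[ℝ] P4 →L[ℝ] ℝ} {Psi Phi : P4 → P4} {V : Set P4}
  {R0 ρ C : ℝ} {p0 : P4}

/-- first push: down the vertical line over `x` -/
lemma push_down (H : SHyp K G Psi Phi V R0 ρ C p0) {x : P3} {t0 T c A η : ℝ} {ps : P4}
    (g : GoodL K Psi V p0 x t0 T c A η ps) {s η' r1 : ℝ} (hs : 0 < s) (hsr : s ≤ r1)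
    (hee : η ≤ η') (hη' : 5 * C * η' < ρ) (hr10 : 0 < r1) (hr1d : r1 ≤ (T - t0) / 8)
    (hE : ‖((T, x) : P4)‖ ≤ R0 / 2) (hr1b : r1 ≤ R0 / 32) {z : P4} (hzV : z ∈ V)
    (hz1 : 0 < (z - (T - s, x)).1)
    (hz2 : ∀ p, ‖p - (T, x)‖ < 8 * r1 → G p (z - (T - s, x)) (z - (T - s, x)) < 0)
    (hin : InV V (T - s, x) z) (hzE : ‖z - (T, x)‖ < r1) (hzη : ‖Psi z - p0‖ ≤ η') :
    InV V (t0, x) z := by
  have hneg := (H.maps z hzV).2
  have hts : T - s ∈ Ico t0 T := ⟨by linarith only [hs, hsr, hr1d], by linarith only [hs]⟩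
  have hzx : ‖z.2 - x‖ < r1 := (norm_snd_le (z - (T, x))).trans_lt hzE
  have hz1T : |z.1 - T| < r1 := (norm_fst_le (z - (T, x))).trans_lt hzE
  obtain ⟨hz1a, hz1b⟩ := abs_lt.1 hz1T
  have hlam : ∀ l ∈ Icc (0:ℝ) 1, 0 ≤ l * (T - s - t0) ∧ l * (T - s - t0) ≤ T - s - t0 := by
    intro l hl
    refine ⟨mul_nonneg hl.1 (by linarith only [hs, hsr, hr1d]), ?_⟩
    have := mul_le_mul_of_nonneg_right hl.2 (show 0 ≤ T - s - t0 by linarith only [hs, hsr, hr1d])
    linarith only [this]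
  have hmem : ∀ l ∈ Icc (0:ℝ) 1, T - s - l * (T - s - t0) ∈ Ico t0 T := by
    intro l hl
    obtain ⟨h1, h2⟩ := hlam l hl
    exact ⟨by linarith only [h2], by linarith only [hs, h1]⟩
  have key := H.pushG (η := η') (vs := (Psi z).2.1) hη' hneg
    (a := fun l => (T - s - l * (T - s - t0), x)) (b := fun _ => z) (by fun_prop)
    continuous_const ?_ ?_ (fun l _ => ⟨hzV, hzη, le_rfl⟩) ?_ 1 ⟨zero_le_one, le_rfl⟩
  · have e1 : ((T - s - 1 * (T - s - t0), x) : P4) = (t0, x) := by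
      refine Prod.ext ?_ rfl
      show T - s - 1 * (T - s - t0) = t0
      ring
    rwa [e1] at key
  · intro l hl
    obtain ⟨hl0, hl1⟩ := hlam l hl
    have hal := g.mem _ (hmem l hl)
    set lam := l * (T - s - t0) with hlamd
    have e2 : (z - ((T - s - lam, x) : P4)).1 = (z - ((T - s, x) : P4)).1 + lam := by
      show z.1 - (T - s - lam) = z.1 - (T - s) + lam
      ring
    refine ⟨fun τ hτ => ?_, by rw [e2]; linarith only [hz1, hl0]⟩
    have hpR := ball_seg (H.V_sub hal) (H.V_sub hzV) hτ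
    rcases le_total lam (6 * r1) with hc6 | hc6
    · have hpE : ‖((T - s - lam, x) : P4) + τ • (z - ((T - s - lam, x) : P4)) - (T, x)‖ <
          8 * r1 := by
        refine ball_segE ?_ (by linarith only [hs, hsr, hzE]) hτ
        rw [down_norm, abs_of_nonpos (by linarith only [hs, hl0])]
        linarith only [hs, hsr, hc6]
      have h1 := hz2 _ hpE
      rw [down_eq z (T - s) lam x] at h1 hpR ⊢
      exact (H.near _ hpR).add_T h1 hz1 hl0
    · have hcone : z - ((T - s - lam, x) : P4) ∈ cone (1 / 4) := by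
        rw [mem_cone]
        have e1 : (z - ((T - s - lam, x) : P4)).2 = z.2 - x := rfl
        have e3 : (z - ((T - s - lam, x) : P4)).1 = z.1 - (T - s - lam) := rfl
        rw [e1, e3]
        linarith only [hs, hsr, hzx, hz1a, hc6]
      have h1 := (H.near _ hpR).timelike_of_cone hcone
      have h2 : 0 < (z - ((T - s - lam, x) : P4)).1 := by rw [e2]; linarith only [hs, hsr, hz1, hc6]
      have h3 : 0 < (z - ((T - s - lam, x) : P4)).1 ^ 2 := by positivity
      linarith only [h1, h3]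
  · intro l hl
    exact ⟨g.mem _ (hmem l hl), (g.bd _ (hmem l hl)).trans hee⟩
  · have : ((T - s - 0 * (T - s - t0), x) : P4) = (T - s, x) := by
      rw [zero_mul, sub_zero]
    rw [this]; exact hin

/-- second push: along the slice `t0` -/
lemma push_slice (H : SHyp K G Psi Phi V R0 ρ C p0) {x : P3} {t0 r T η' r1 : ℝ}
    (hx : x ∈ Metric.ball (0 : P3) r)
    (hmem : ∀ y ∈ Metric.ball (0 : P3) r, ((t0, y) : P4) ∈ V ∧ ‖Psi (t0, y) - p0‖ ≤ η')
    (hη' : 5 * C * η' < ρ) (hr1d : r1 ≤ (T - t0) / 8) (hr10 : 0 < r1) {z : P4} (hzV : z ∈ V)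
    (hzr : z.2 ∈ Metric.ball (0 : P3) r) (hin : InV V (t0, x) z) (hzE : ‖z - (T, x)‖ < r1)
    (hzη : ‖Psi z - p0‖ ≤ η') : InV V (t0, z.2) z := by
  have hneg := (H.maps z hzV).2
  have hzx : ‖z.2 - x‖ < r1 := (norm_snd_le (z - (T, x))).trans_lt hzE
  have hz1T : |z.1 - T| < r1 := (norm_fst_le (z - (T, x))).trans_lt hzE
  obtain ⟨hz1a, hz1b⟩ := abs_lt.1 hz1T
  have hmemx : ∀ l ∈ Icc (0:ℝ) 1, x + l • (z.2 - x) ∈ Metric.ball (0 : P3) r :=
    fun l hl => (convex_ball (0 : P3) r).add_smul_sub_mem hx hzr hl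
  have key := H.pushG (η := η') (vs := (Psi z).2.1) hη' hneg
    (a := fun l => (t0, x + l • (z.2 - x))) (b := fun _ => z) (by fun_prop)
    continuous_const ?_ ?_ (fun l _ => ⟨hzV, hzη, le_rfl⟩) ?_ 1 ⟨zero_le_one, le_rfl⟩
  · have e1 : ((t0, x + (1:ℝ) • (z.2 - x)) : P4) = (t0, z.2) := by
      rw [one_smul, add_sub_cancel]
    rwa [e1] at key
  · intro l hl
    have e2 : (z - ((t0, x + l • (z.2 - x)) : P4)).1 = z.1 - t0 := rfl
    have hcone : z - ((t0, x + l • (z.2 - x)) : P4) ∈ cone (1 / 4) := by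
      rw [mem_cone]
      have e1 : (z - ((t0, x + l • (z.2 - x)) : P4)).2 = (1 - l) • (z.2 - x) := by
        show z.2 - (x + l • (z.2 - x)) = _
        module
      rw [e1, e2, norm_smul, Real.norm_eq_abs, abs_of_nonneg (by linarith only [hl.2])]
      have h1 : (1 - l) * ‖z.2 - x‖ ≤ 1 * r1 :=
        mul_le_mul (by linarith only [hl.1]) hzx.le (norm_nonneg _) zero_le_one
      linarith only [hr1d, hr10, hz1a, h1]
    have hal := (hmem _ (hmemx l hl)).1
    have h2 : 0 < (z - ((t0, x + l • (z.2 - x)) : P4)).1 := by rw [e2]; linarith only [hr1d, hr10, hz1a]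
    refine ⟨fun τ hτ => ?_, h2⟩
    have h1 := (H.near _ (ball_seg (H.V_sub hal) (H.V_sub hzV) hτ)).timelike_of_cone hcone
    have h3 : 0 < (z - ((t0, x + l • (z.2 - x)) : P4)).1 ^ 2 := by positivity
    linarith only [h1, h3]
  · intro l hl
    exact hmem _ (hmemx l hl)
  · have : ((t0, x + (0:ℝ) • (z.2 - x)) : P4) = (t0, x) := by
      rw [zero_smul, add_zero]
    rw [this]; exact hin

/-- the preimage lies in the region of the vertical lines -/
lemma in_DD (H : SHyp K G Psi Phi V R0 ρ C p0) {t0 r : ℝ} {f : P3 → ℝ}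
    (hexit : ∀ x ∈ Metric.ball (0 : P3) r, ∀ v2 < 0, ∃ t ∈ Ico t0 (f x), v2 < (Psi (t, x)).2.1)
    {z : P4} (hzV : z ∈ V) (hzr : z.2 ∈ Metric.ball (0 : P3) r) (hzt : t0 < z.1)
    (hin : InV V (t0, z.2) z) : z ∈ DD t0 r f := by
  have hneg := (H.maps z hzV).2
  have hvert : ∀ t ∈ Icc t0 z.1, ((t, z.2) : P4) ∈ V := by
    intro t ht
    have hpos : 0 < z.1 - t0 := by linarith
    have h1 := hin ((t - t0) / (z.1 - t0)) ⟨div_nonneg (by linarith [ht.1]) hpos.le, by
      rw [div_le_one hpos]; linarith [ht.2]⟩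
    have h2 : ((t0, z.2) : P4) + ((t - t0) / (z.1 - t0)) • (z - ((t0, z.2) : P4)) = (t, z.2) := by
      refine Prod.ext ?_ ?_
      · show t0 + (t - t0) / (z.1 - t0) * (z.1 - t0) = t
        rw [div_mul_cancel₀ _ hpos.ne']; ring
      · show z.2 + ((t - t0) / (z.1 - t0)) • (z.2 - z.2) = z.2
        simp
    rwa [h2] at h1
  refine ⟨hzr, hzt, ?_⟩
  by_contra hcon
  push Not at hcon
  obtain ⟨t, ht, htv⟩ := hexit z.2 hzr _ hneg
  have h1 := H.rel_ends (vline_cone (ht.2.le.trans hcon) z.2) (vline_inV (ht.2.le.trans hcon)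
    (fun w hw => hvert w ⟨ht.1.trans hw.1, hw.2⟩))
  have h2 : ((z.1, z.2) : P4) = z := rfl
  rw [h2] at h1
  linarith [h1.1]

/-- **Openness.** A box neighbourhood of the end point of a good vertical line is covered. -/
theorem openness (H : SHyp K G Psi Phi V R0 ρ C p0) {t0 r η : ℝ} {f : P3 → ℝ}
    (hη : 5 * C * η < ρ) (ht0f : ∀ x ∈ Metric.ball (0 : P3) r, t0 < f x)
    (hmemV : ∀ x ∈ Metric.ball (0 : P3) r, ∀ t ∈ Ico t0 (f x), ((t, x) : P4) ∈ V)
    (hexit : ∀ x ∈ Metric.ball (0 : P3) r, ∀ v2 < 0, ∃ t ∈ Ico t0 (f x), v2 < (Psi (t, x)).2.1)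
    (hbd : ∀ x ∈ Metric.ball (0 : P3) r, ∀ t ∈ Ico t0 (f x), ‖Psi (t, x) - p0‖ ≤ η)
    (hR : ∀ z ∈ DD t0 r f, ‖z‖ ≤ R0 / 2) {x : P3} (hx : x ∈ Metric.ball (0 : P3) r)
    (hG : ContinuousOn G (Metric.ball 0 R0)) {A : ℝ} (hA : 1 ≤ A)
    (hgood : ∀ t ∈ Ico t0 (f x), ‖fderiv ℝ Psi (t, x) Tv‖ ≤ A) {ε1 : ℝ} (hε1 : 0 < ε1) :
    ∃ ε > 0, ∃ v0 < 0, ∃ ps : P4, ∀ q : P4, v0 ≤ q.2.1 → q.2.1 < 0 → |q.1 - ps.1| < ε →
      |q.2.2.1 - ps.2.2.1| < ε → |q.2.2.2 - ps.2.2.2| < ε →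
      ∃ z ∈ DD t0 r f, Psi z = q ∧ ‖z.2 - x‖ < ε1 := by
  have hC := H.one_le
  have hC0 : 0 < C := by linarith
  have hA0 : 0 < A := by linarith
  set T := f x with hT
  have htT : t0 < T := ht0f x hx
  set E : P4 := (T, x) with hE
  obtain ⟨ps, g⟩ := H.exists_goodL htT (hmemV x hx) (hexit x hx) (hbd x hx) hA hgood
  have hη0 : 0 ≤ η := (norm_nonneg _).trans (hbd x hx t0 ⟨le_rfl, htT⟩)
  have hEn : ‖E‖ ≤ R0 / 2 := by
    have h1 : Tendsto (fun t : ℝ => ‖((t, x) : P4)‖) (𝓝[<] T) (𝓝 ‖E‖) := by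
      have hcc : Continuous (fun t : ℝ => ‖((t, x) : P4)‖) := by fun_prop
      exact (hcc.tendsto T).mono_left nhdsWithin_le_nhds
    refine le_of_tendsto h1 ?_
    filter_upwards [Ioo_mem_nhdsLT htT] with t ht
    exact hR (t, x) ⟨hx, ht.1, ht.2⟩
  have hEball : E ∈ Metric.ball (0 : P4) R0 := by
    rw [mem_ball_zero_iff]; linarith [H.R0_pos]
  have hGE : ContinuousAt G E := hG.continuousAt (Metric.isOpen_ball.mem_nhds hEball)
  -- parameters
  set th : ℝ := 1 / (300 * C ^ 2 * A ^ 2) with hth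
  have hth0 : 0 < th := by positivity
  have hth1 : th ≤ 1 / 300 := by
    rw [hth]
    apply one_div_le_one_div_of_le (by norm_num)
    have h1 : 1 ≤ C ^ 2 := one_le_pow₀ hC
    have h2 : 1 ≤ A ^ 2 := one_le_pow₀ hA
    nlinarith only [h1, h2]
  obtain ⟨δ0, hδ0, hcl0⟩ := exists_closeTo hGE (show 0 < th / 1024 by positivity)
  have hxr : ‖x‖ < r := by rwa [mem_ball_zero_iff] at hx
  set r1 : ℝ := min (min (min (δ0 / 8) ε1) (R0 / 32)) (min ((r - ‖x‖) / 2) ((T - t0) / 8)) with hr1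
  have hr1a : r1 ≤ δ0 / 8 :=
    ((min_le_left _ _).trans (min_le_left _ _)).trans (min_le_left _ _)
  have hr1e : r1 ≤ ε1 := ((min_le_left _ _).trans (min_le_left _ _)).trans (min_le_right _ _)
  have hr1b : r1 ≤ R0 / 32 := (min_le_left _ _).trans (min_le_right _ _)
  have hr1c : r1 ≤ (r - ‖x‖) / 2 := (min_le_right _ _).trans (min_le_left _ _)
  have hr1d : r1 ≤ (T - t0) / 8 := (min_le_right _ _).trans (min_le_right _ _)
  have hr10 : 0 < r1 := lt_min (lt_min (lt_min (by linarith only [hδ0]) hε1) (by linarith only [H.R0_pos]))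
    (lt_min (by linarith only [hxr]) (by linarith only [htT]))
  have hcl : CloseTo G E (8 * r1) (th / 1024) := fun z hz => hcl0 z (hz.trans_le (by linarith only [hr1a]))
  set s : ℝ := th * r1 with hs
  have hs0 : 0 < s := by positivity
  have hs1 : s ≤ r1 / 300 := by
    rw [hs]
    calc th * r1 ≤ 1 / 300 * r1 := by gcongr
      _ = r1 / 300 := by ring
  have hs2 : 289 * C ^ 2 * A ^ 2 * s = 289 / 300 * r1 := by
    rw [hs, hth]; field_simp
  set e0 : ℝ := (ρ - 5 * C * η) / (10 * C) with he0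
  have he00 : 0 < e0 := div_pos (by linarith only [hη]) (by positivity)
  have hη' : 5 * C * (η + e0) < ρ := by
    have : 5 * C * e0 = (ρ - 5 * C * η) / 2 := by
      rw [he0]; field_simp; ring
    have h2 : 5 * C * (η + e0) = 5 * C * η + 5 * C * e0 := by ring
    rw [h2, this]; linarith only [hη]
  have hη'ρ : η + e0 < ρ := by
    have h1 : η + e0 ≤ 5 * C * (η + e0) := by
      have : 0 ≤ η + e0 := by linarith only [hη0, he00]
      nlinarith only [hη0, he00, hC]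
    linarith only [hη', h1]
  set e : ℝ := min (min e0 (A * s)) (min (1 / (224 * C ^ 4 * A ^ 2)) (s / (704 * C ^ 2 * A)))
    with he
  have hea : e ≤ e0 := (min_le_left _ _).trans (min_le_left _ _)
  have heb : e ≤ A * s := (min_le_left _ _).trans (min_le_right _ _)
  have hec : e ≤ 1 / (224 * C ^ 4 * A ^ 2) := (min_le_right _ _).trans (min_le_left _ _)
  have hed : e ≤ s / (704 * C ^ 2 * A) := (min_le_right _ _).trans (min_le_right _ _)
  have hepos : 0 < e := lt_min (lt_min he00 (by positivity)) (lt_min (by positivity) (by positivity))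
  have hec' : 224 * C ^ 4 * A ^ 2 * e ≤ 1 := by
    rw [le_div_iff₀ (by positivity)] at hec; linarith only [hec]
  have hed' : 704 * C ^ 2 * A * e ≤ s := by
    rw [le_div_iff₀ (by positivity)] at hed; linarith only [hed]
  have hR1 : Metric.closedBall E r1 ⊆ Metric.ball 0 R0 := by
    intro z hz
    rw [mem_closedBall_iff_norm] at hz
    rw [mem_ball_zero_iff]
    have : z = (z - E) + E := by abel
    rw [this]
    refine (norm_add_le _ _).trans_lt ?_
    linarith only [hEn, hr1b, hs0, hs1, hz]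
  refine ⟨e / 2, by linarith only [hepos], -(1 / (4 * C * A) * min (s / 4) (e / (2 * A))), ?_, ps, ?_⟩
  · have : 0 < 1 / (4 * C * A) * min (s / 4) (e / (2 * A)) :=
      mul_pos (by positivity) (lt_min (by linarith only [hs0]) (by positivity))
    linarith only [this]
  intro q hq0 hqneg hq1 hq2 hq3
  obtain ⟨z, hzV, hzq, ⟨hz1, hz2⟩, hzin, hzE, hzη⟩ := H.cover_pt g (s := s) (e := e)
    (η' := η + e0) (ω := th / 1024) (δ := 8 * r1) (r1 := r1) hs0 hepos (by linarith only [hr1d, hs0, hs1]) (by linarith only [hea])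
    hη' hη'ρ hec' hed' heb (by positivity) (by linarith only [hth1]) hcl (H.near E hEball)
    (by rw [hs]; linarith only []) (by linarith only [hs0, hs1]) (by rw [hs2]; linarith only [hs0, hs1]) (by linarith only [hs0, hs1]) hR1
    hq0 hqneg hq1 hq2 hq3
  have hIn1 := H.push_down g hs0 (by linarith only [hs0, hs1]) (by linarith only [he00] : η ≤ η + e0) hη' hr10 hr1d hEn hr1b
    hzV hz1 hz2 hzin hzE hzη
  have hzx : ‖z.2 - x‖ < r1 := (norm_snd_le (z - E)).trans_lt hzE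
  have hz1T : |z.1 - T| < r1 := (norm_fst_le (z - E)).trans_lt hzE
  have hzr : z.2 ∈ Metric.ball (0 : P3) r := by
    rw [mem_ball_zero_iff]
    have : z.2 = (z.2 - x) + x := by abel
    rw [this]
    refine (norm_add_le _ _).trans_lt ?_
    linarith only [hr1c, hs0, hs1, hzx]
  have hIn2 := H.push_slice (T := T) hx (η' := η + e0) (fun y hy => ⟨hmemV y hy t0
    ⟨le_rfl, ht0f y hy⟩, (hbd y hy t0 ⟨le_rfl, ht0f y hy⟩).trans (by linarith only [he00])⟩) hη' hr1d hr10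
    hzV hzr hIn1 hzE hzη
  exact ⟨z, H.in_DD hexit hzV hzr (by linarith only [hr1d, hs0, hs1, (abs_lt.1 hz1T).1]) hIn2, hzq,
    hzx.trans_le hr1e⟩

end SHyp

end Vale.Agent.P354
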