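import Vale.Agent.P354y.Push

set_option maxSynthPendingDepth 3

open Set Filter Topology

namespace Vale.Agent.P354

lemma le_of_deriv {f f' g g' : ℝ → ℝ} {a b : ℝ} (hab : a ≤ b)
    (hf : ∀ τ ∈ Icc a b, HasDerivAt f (f' τ) τ) (hg : ∀ τ ∈ Icc a b, HasDerivAt g (g' τ) τ)
    (h : ∀ τ ∈ Icc a b, f' τ ≤ g' τ) : f b - f a ≤ g b - g a := by
  have hd : ∀ τ ∈ Icc a b, HasDerivAt (fun τ => g τ - f τ) (g' τ - f' τ) τ :=
    fun τ hτ => (hg τ hτ).sub (hf τ hτ)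
  have hm : MonotoneOn (fun τ => g τ - f τ) (Icc a b) := by
    refine monotoneOn_of_deriv_nonneg (convex_Icc a b)
      (fun τ hτ => (hd τ hτ).continuousAt.continuousWithinAt) ?_ ?_
    · intro τ hτ
      rw [interior_Icc] at hτ
      exact (hd τ ⟨hτ.1.le, hτ.2.le⟩).differentiableAt.differentiableWithinAt
    · intro τ hτ
      rw [interior_Icc] at hτ
      rw [(hd τ ⟨hτ.1.le, hτ.2.le⟩).deriv]
      linarith [h τ ⟨hτ.1.le, hτ.2.le⟩]
  have := hm ⟨le_rfl, hab⟩ ⟨hab, le_rfl⟩ hab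
  simp only at this
  linarith

/-- all `G z` near `E` are close to `G E` -/
def CloseTo (G : P4 → P4 →L[ℝ] P4 →L[ℝ] ℝ) (E : P4) (δ ω : ℝ) : Prop :=
  ∀ z, ‖z - E‖ < δ → ∀ a b, |G z a b - G E a b| ≤ ω * ‖a‖ * ‖b‖

lemma exists_closeTo {G : P4 → P4 →L[ℝ] P4 →L[ℝ] ℝ} {E : P4} (hG : ContinuousAt G E) {ω : ℝ}
    (hω : 0 < ω) : ∃ δ > 0, CloseTo G E δ ω := by
  obtain ⟨δ, hδ, h⟩ := Metric.continuousAt_iff.1 hG ω hω
  refine ⟨δ, hδ, fun z hz a b => ?_⟩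
  have h1 := h (by rwa [dist_eq_norm] : dist z E < δ)
  rw [dist_eq_norm] at h1
  have h2 : G z a b - G E a b = (G z - G E) a b := rfl
  rw [h2]
  calc |(G z - G E) a b| ≤ ‖(G z - G E) a‖ * ‖b‖ := ((G z - G E) a).le_opNorm b
    _ ≤ ‖G z - G E‖ * ‖a‖ * ‖b‖ := by
      gcongr; exact (G z - G E).le_opNorm a
    _ ≤ ω * ‖a‖ * ‖b‖ := by gcongr

lemma bil_left (B : P4 →L[ℝ] P4 →L[ℝ] ℝ) (D T b : P4) (l : ℝ) :
    B (D + l • T) b = B D b + l * B T b := by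
  rw [map_add, map_smul]
  rfl

namespace NearM

variable {B : P4 →L[ℝ] P4 →L[ℝ] ℝ}

lemma T_le (h : NearM B) {a : P4} (ha : B a a ≤ 0) (h0 : 0 < a.1) :
    B Tv a ≤ -(49 / 100 * ‖a‖) ∧ B a Tv ≤ -(49 / 100 * ‖a‖) := by
  have h1 := (abs_le.1 (h Tv a)).2
  have h1' := (abs_le.1 (h a Tv)).2
  have h2 := h.norm_le_of_causal ha
  have h3 : mink Tv a = -a.1 := by simp only [mink, Tv, one_mul, zero_mul, add_zero]
  have h3' : mink a Tv = -a.1 := by simp [mink, Tv]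
  rw [h3, norm_Tv] at h1
  rw [h3', norm_Tv] at h1'
  rw [abs_of_pos h0] at h2
  constructor <;> linarith only [h1, h2, h1']

/-- a vector whose products with future vectors are small, plus a small vertical vector, is
timelike -/
lemma disp (h : NearM B) {ω s : ℝ} {D : P4} (hω : 0 < ω) (hω1 : ω ≤ 1 / 100) (hD : 0 ≤ D.1)
    (hI : ∀ b : P4, B b b + ω * ‖b‖ ^ 2 < 0 → 0 < b.1 → B D b ≤ 2 * ω * ‖b‖ * D.1)
    (hs : 0 < s) (hs2 : 32 * ω * D.1 ≤ s) :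
    B (D + s • Tv) (D + s • Tv) ≤ -(s / 4 * ‖D + s • Tv‖) := by
  have w1 : ∀ l : ℝ, (D + l • Tv).1 = D.1 + l := by
    intro l; simp [Tv]
  have w2 : ∀ l : ℝ, (D + l • Tv).2 = D.2 := by
    intro l; simp [Tv]
  have key : B (D + s • Tv) (D + s • Tv) + 2 * ω * ‖D + s • Tv‖ ^ 2 < 0 := by
    by_contra hcon
    push Not at hcon
    set l1 : ℝ := 4 * ‖D.2‖ + s + 1 with hl1
    have hn2 : 0 ≤ ‖D.2‖ := norm_nonneg _
    have hneg : B (D + l1 • Tv) (D + l1 • Tv) + 2 * ω * ‖D + l1 • Tv‖ ^ 2 < 0 := by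
      have hc : D + l1 • Tv ∈ cone (1 / 4) := by
        rw [mem_cone, w1, w2]; linarith only [hD, hs]
      have h1 := h.timelike_of_cone hc
      have h2 : ‖D + l1 • Tv‖ = (D + l1 • Tv).1 := by
        rw [norm_P4, abs_of_nonneg (by rw [w1]; linarith only [hD, hs, hn2])]
        apply max_eq_left
        rw [w1, w2]; linarith only [hω, hω1, hD, hs, hn2]
      rw [h2]
      have h3 : 0 < (D + l1 • Tv).1 := by rw [w1]; linarith only [hω, hω1, hD, hs, hn2]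
      have h4 : 0 < (D + l1 • Tv).1 ^ 2 := by positivity
      nlinarith only [h1, h4, hω1]
    have hcont : ContinuousOn (fun l : ℝ => B (D + l • Tv) (D + l • Tv) +
        2 * ω * ‖D + l • Tv‖ ^ 2) (Icc s l1) := by
      apply Continuous.continuousOn
      fun_prop
    obtain ⟨l, hl, hl0⟩ := intermediate_value_Icc' (by linarith only [hω, hω1, hn2] : s ≤ l1) hcont
      (show (0:ℝ) ∈ _ from ⟨hneg.le, hcon⟩)
    simp only at hl0
    set b := D + l • Tv with hb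
    have hlpos : 0 < l := hs.trans_le hl.1
    have hb1 : 0 < b.1 := by rw [hb, w1]; linarith only [hD, hlpos]
    have hb0 : 0 < ‖b‖ := by
      rw [norm_pos_iff]
      intro h0
      rw [h0] at hb1
      exact lt_irrefl _ hb1
    have hbb : B b b = -(2 * ω * ‖b‖ ^ 2) := by linarith only [hl0]
    have hbb0 : B b b ≤ 0 := by rw [hbb]; have : 0 < 2 * ω * ‖b‖ ^ 2 := by positivity
                                linarith only [this]
    have hI1 := hI b (by rw [hbb]; have : 0 < ω * ‖b‖ ^ 2 := by positivity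
                         linarith only [this]) hb1
    have hT := (h.T_le hbb0 hb1).1
    have hn := h.norm_le_of_causal hbb0
    rw [abs_of_pos hb1] at hn
    have he : B b b = B D b + l * B Tv b := by
      calc B b b = B (D + l • Tv) b := by rw [← hb]
        _ = _ := bil_left B D Tv b l
    have h5 : l * B Tv b ≤ l * (-(49 / 100 * ‖b‖)) := mul_le_mul_of_nonneg_left hT hlpos.le
    have h6 : (49 / 100 * l) * ‖b‖ ≤ (2 * ω * D.1 + 2 * ω * ‖b‖) * ‖b‖ := by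
      rw [hbb] at he
      linarith only [hI1, he, h5]
    have h7 := le_of_mul_le_mul_right h6 hb0
    have hb1' : b.1 = D.1 + l := by rw [hb, w1]
    rw [hb1'] at hn
    have h8 : 2 * ω * ‖b‖ ≤ 2 * ω * (2 * (D.1 + l)) := by gcongr
    have h9 : 4 * ω * l ≤ 4 * (1 / 100) * l := by gcongr
    have h10 : 0 ≤ ω * D.1 := by positivity
    have h11 : l ≥ 32 * (ω * D.1) := by
      have := hl.1; linarith only [hs2, this]
    linarith only [hlpos, h7, h8, h9, h11]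
  set b := D + s • Tv with hb
  have hb1' : b.1 = D.1 + s := by rw [hb, w1]
  have hb1 : 0 < b.1 := by rw [hb1']; linarith only [hD, hs]
  have hn0 : 0 ≤ ‖b‖ := norm_nonneg _
  have hI1 := hI b (by
    have : 0 ≤ ω * ‖b‖ ^ 2 := by positivity
    by_cases hz : ‖b‖ = 0
    · have hb0 : b = 0 := norm_eq_zero.1 hz
      rw [hb0] at hb1
      exact absurd hb1 (lt_irrefl _)
    · linarith only [key, this]) hb1
  have hbb0 : B b b ≤ 0 := by
    have : 0 ≤ 2 * ω * ‖b‖ ^ 2 := by positivity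
    linarith only [key, this]
  have hT := (h.T_le hbb0 hb1).1
  have he : B b b = B D b + s * B Tv b := by
    calc B b b = B (D + s • Tv) b := by rw [← hb]
      _ = _ := bil_left B D Tv b s
  rw [he]
  have h5 : s * B Tv b ≤ s * (-(49 / 100 * ‖b‖)) := mul_le_mul_of_nonneg_left hT hs.le
  have h6 : 2 * ω * ‖b‖ * D.1 ≤ s / 16 * ‖b‖ := by
    have : 2 * ω * D.1 ≤ s / 16 := by linarith only [hs2]
    calc 2 * ω * ‖b‖ * D.1 = (2 * ω * D.1) * ‖b‖ := by ring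
      _ ≤ _ := by gcongr
  linarith only [hI1, hbb0, he, h5, h6]

/-- the same for forms close to `B` -/
lemma disp_close (h : NearM B) {ω s : ℝ} {D : P4} (hω : 0 < ω) (hω1 : ω ≤ 1 / 100)
    (hD : 0 ≤ D.1)
    (hI : ∀ b : P4, B b b + ω * ‖b‖ ^ 2 < 0 → 0 < b.1 → B D b ≤ 2 * ω * ‖b‖ * D.1)
    (hs : 0 < s) (hs2 : 32 * ω * D.1 ≤ s) {B' : P4 →L[ℝ] P4 →L[ℝ] ℝ}
    (hB : ∀ a b, |B' a b - B a b| ≤ ω * ‖a‖ * ‖b‖) :
    B' (D + s • Tv) (D + s • Tv) ≤ -(s / 8 * (D.1 + s)) := by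
  have h1 := h.disp hω hω1 hD hI hs hs2
  have w1 : (D + s • Tv).1 = D.1 + s := by simp [Tv]
  set b := D + s • Tv with hb
  have hb1 : 0 < b.1 := by rw [w1]; linarith only [hD, hs]
  have hn0 : 0 ≤ ‖b‖ := norm_nonneg _
  have hbb0 : B b b ≤ 0 := h1.trans (by
    have : 0 ≤ s / 4 * ‖b‖ := by positivity
    linarith only [this])
  have hn := h.norm_le_of_causal hbb0
  rw [abs_of_pos hb1, w1] at hn
  have hn1 : D.1 + s ≤ ‖b‖ := by
    rw [← w1]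
    exact (le_abs_self _).trans (norm_fst_le b)
  have h2 := (abs_le.1 (hB b b)).2
  have h3 : ω * ‖b‖ ≤ s / 16 + s / 50 := by
    calc ω * ‖b‖ ≤ ω * (2 * (D.1 + s)) := by gcongr
      _ = (2 * ω * D.1) + 2 * ω * s := by ring
      _ ≤ s / 16 + 2 * (1 / 100) * s := by
        have : 2 * ω * s ≤ 2 * (1 / 100) * s := by gcongr
        linarith only [hs2, this]
      _ = _ := by ring
  have h4 : ω * ‖b‖ * ‖b‖ ≤ (s / 16 + s / 50) * ‖b‖ := by gcongr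
  have h5 : s / 8 * (D.1 + s) ≤ s / 8 * ‖b‖ := by gcongr
  linarith only [h1, hbb0, h2, h4, h5]

end NearM

namespace SHyp

variable {K : Coef} {G : P4 → P4 →L[ℝ] P4 →L[ℝ] ℝ} {Psi Phi : P4 → P4} {V : Set P4}
  {R0 ρ C : ℝ} {p0 : P4}

/-- displacements along future timelike curves near `E` -/
lemma disp_curve (H : SHyp K G Psi Phi V R0 ρ C p0) {E : P4} {δ ω : ℝ} (hω : 0 < ω)
    (hcl : CloseTo G E δ ω) {ν ν' : ℝ → P4} {τ1 τ2 : ℝ} (h12 : τ1 ≤ τ2)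
    (hν : ∀ τ ∈ Icc τ1 τ2, HasDerivAt ν (ν' τ) τ) (hV : ∀ τ ∈ Icc τ1 τ2, ν τ ∈ V)
    (hE : ∀ τ ∈ Icc τ1 τ2, ‖ν τ - E‖ < δ)
    (hT : ∀ τ ∈ Icc τ1 τ2, G (ν τ) (ν' τ) (ν' τ) < 0) (hp : ∀ τ ∈ Icc τ1 τ2, 0 < (ν' τ).1)
    (b : P4) (hb : G E b b + ω * ‖b‖ ^ 2 < 0) (hb1 : 0 < b.1) :
    G E (ν τ2 - ν τ1) b ≤ 2 * ω * ‖b‖ * (ν τ2 - ν τ1).1 := by
  have hf : ∀ τ ∈ Icc τ1 τ2, HasDerivAt (fun τ => G E (ν τ) b) (G E (ν' τ) b) τ := by
    intro τ hτ
    have h1 : HasDerivAt (fun τ => G E (ν τ)) (G E (ν' τ)) τ :=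
      (G E).hasFDerivAt.comp_hasDerivAt τ (hν τ hτ)
    exact h1.clm_apply (hasDerivAt_const τ b) |>.congr_deriv (by simp)
  have hg : ∀ τ ∈ Icc τ1 τ2, HasDerivAt (fun τ => 2 * ω * ‖b‖ * (ν τ).1)
      (2 * ω * ‖b‖ * (ν' τ).1) τ := by
    intro τ hτ
    have h1 : HasDerivAt (fun τ => (ν τ).1) (ν' τ).1 τ := (hν τ hτ).fst
    exact h1.const_mul _
  have h := le_of_deriv h12 hf hg (fun τ hτ => by
    have hz := hV τ hτ
    have hc := hcl (ν τ) (hE τ hτ)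
    have hbz : G (ν τ) b b < 0 := by
      have := (abs_le.1 (hc b b)).2
      linarith only [hb, this]
    have hab : G (ν τ) (ν' τ) b < 0 := by
      have v1 := H.v_pos hz (hT τ hτ) (hp τ hτ)
      have v2 := H.v_pos hz hbz hb1
      have t1 := hT τ hτ
      rw [H.iso.iso _ hz] at t1 hbz ⊢
      exact (H.cbd hz).gF_neg t1 hbz v1 v2
    have h2 := (abs_le.1 (hc (ν' τ) b)).1
    have h3 := (H.nearV hz).norm_le_of_causal (hT τ hτ).le
    rw [abs_of_pos (hp τ hτ)] at h3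
    have h4 : ω * ‖ν' τ‖ * ‖b‖ ≤ ω * (2 * (ν' τ).1) * ‖b‖ := by gcongr
    linarith only [hab, h2, h4])
  have e1 : G E (ν τ2 - ν τ1) b = G E (ν τ2) b - G E (ν τ1) b := by
    rw [map_sub]; rfl
  have e2 : (ν τ2 - ν τ1).1 = (ν τ2).1 - (ν τ1).1 := rfl
  rw [e1, e2]
  linarith only [h]

end SHyp

end Vale.Agent.P354
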