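import Vale.Agent.P354y.Disp

set_option maxSynthPendingDepth 3

open Set Filter Topology

namespace Vale.Agent.P354

lemma ball_segE {E a b : P4} {δ : ℝ} (ha : ‖a - E‖ < δ) (hb : ‖b - E‖ < δ) {τ : ℝ}
    (hτ : τ ∈ Icc (0:ℝ) 1) : ‖a + τ • (b - a) - E‖ < δ := by
  have h1 : a ∈ Metric.ball E δ := by rwa [mem_ball_iff_norm]
  have h2 : b ∈ Metric.ball E δ := by rwa [mem_ball_iff_norm]
  have := (convex_ball E δ).add_smul_sub_mem h1 h2 hτ
  rwa [mem_ball_iff_norm] at this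

namespace SHyp

variable {K : Coef} {G : P4 → P4 →L[ℝ] P4 →L[ℝ] ℝ} {Psi Phi : P4 → P4} {V : Set P4}
  {R0 ρ C : ℝ} {p0 : P4}

/-- the length of a timelike segment is bounded by the null coordinates -/
lemma len_upG (H : SHyp K G Psi Phi V R0 ρ C p0) {a b : P4} (hab : TSeg G a b)
    (hin : InV V a b) {m : ℝ}
    (hm2 : ∀ τ ∈ Icc (0:ℝ) 1, G (a + τ • (b - a)) (b - a) (b - a) ≤ -m ^ 2) :
    m ≤ C * (((Psi b).2.2.1 - (Psi a).2.2.1) + ((Psi b).2.1 - (Psi a).2.1)) := by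
  have hd : ∀ τ ∈ Icc (0:ℝ) 1, HasDerivAt (fun τ : ℝ => Psi (a + τ • (b - a)))
      (fderiv ℝ Psi (a + τ • (b - a)) (b - a)) τ := fun τ hτ => H.hasDerivAt_seg (hin τ hτ)
  have hd2 : ∀ τ ∈ Icc (0:ℝ) 1, HasDerivAt (fun τ : ℝ => (Psi (a + τ • (b - a))).2.1)
      (fderiv ℝ Psi (a + τ • (b - a)) (b - a)).2.1 τ := fun τ hτ => (hd τ hτ).snd.fst
  have hd3 : ∀ τ ∈ Icc (0:ℝ) 1, HasDerivAt (fun τ : ℝ => (Psi (a + τ • (b - a))).2.2.1)
      (fderiv ℝ Psi (a + τ • (b - a)) (b - a)).2.2.1 τ := fun τ hτ => (hd τ hτ).snd.snd.fst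
  have hg : ∀ τ ∈ Icc (0:ℝ) 1, HasDerivAt (fun τ : ℝ => C * ((Psi (a + τ • (b - a))).2.2.1
      + (Psi (a + τ • (b - a))).2.1))
      (C * ((fderiv ℝ Psi (a + τ • (b - a)) (b - a)).2.2.1
        + (fderiv ℝ Psi (a + τ • (b - a)) (b - a)).2.1)) τ := fun τ hτ =>
    ((hd3 τ hτ).add (hd2 τ hτ)).const_mul C
  have hf : ∀ τ ∈ Icc (0:ℝ) 1, HasDerivAt (fun τ : ℝ => τ * m) m τ := by
    intro τ _
    simpa using (hasDerivAt_id τ).mul_const m
  have := le_of_deriv zero_le_one hf hg (fun τ hτ => by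
    have hz := hin τ hτ
    have hfc := H.fc_time hz (hab.1 τ hτ) hab.2
    have hN := hm2 τ hτ
    rw [H.iso.iso _ hz, gF_diag] at hN
    have hc := H.cbd hz
    have hQ := hc.Q_nonneg (K.h1 (Psi (a + τ • (b - a))) (fderiv ℝ Psi (a + τ • (b - a)) (b - a)))
      (K.h2 (Psi (a + τ • (b - a))) (fderiv ℝ Psi (a + τ • (b - a)) (b - a)))
    set w := fderiv ℝ Psi (a + τ • (b - a)) (b - a) with hw
    obtain ⟨f1, f2, -⟩ := hfc
    have h5 : m ^ 2 ≤ 2 * C * (w.2.1 * w.2.2.1) := by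
      have : K.om (Psi (a + τ • (b - a))) * (w.2.1 * w.2.2.1) ≤ C * (w.2.1 * w.2.2.1) :=
        mul_le_mul_of_nonneg_right hc.om_hi (mul_nonneg f1 f2)
      linarith only [hN, hQ, this]
    have hC := hc.one_le
    have h6 : m ^ 2 ≤ (C * (w.2.2.1 + w.2.1)) ^ 2 := by
      have h7 : 4 * (w.2.1 * w.2.2.1) ≤ (w.2.2.1 + w.2.1) ^ 2 := by
        linarith only [sq_nonneg (w.2.2.1 - w.2.1)]
      have h8 : C * (w.2.2.1 + w.2.1) ^ 2 ≤ C ^ 2 * (w.2.2.1 + w.2.1) ^ 2 := by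
        have := (powC hC).1
        (clear * - this; gcongr)
      have h9 : 0 ≤ C * (w.2.1 * w.2.2.1) := mul_nonneg hc.C_pos.le (mul_nonneg f1 f2)
      nlinarith
    exact le_of_abs_le (abs_le_of_sq_le_sq h6 (mul_nonneg hc.C_pos.le (by linarith only [f1, f2]))))
  simp only [one_mul, zero_mul, sub_zero, one_smul, zero_smul, add_zero, add_sub_cancel] at this
  refine this.trans (le_of_eq ?_)
  ring

/-- A future timelike curve which starts close to the good exit point `E` on the vertical line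
and stays in the region where `u` is bounded remains close to `E`. -/
lemma lateral (H : SHyp K G Psi Phi V R0 ρ C p0) {x : ℝ × ℝ × ℝ} {T Cx δ ω s η vs pu : ℝ}
    (hω : 0 < ω) (hω1 : ω ≤ 1 / 100) (hcl : CloseTo G (T, x) δ ω) (hN : NearM (G (T, x)))
    (hs : 0 < s) (hsδ : s < δ) (hCx : 1 ≤ Cx) (hη : 5 * C * η < ρ) (hvs : vs < 0)
    (hline : ∀ t ∈ Icc (T - s) (T - s / 2), ((t, x) : P4) ∈ V ∧ ‖Psi (t, x) - p0‖ ≤ η)
    (hua : pu - Cx * s ≤ (Psi (T - s, x)).2.2.1) (hva : -(Cx * s) ≤ (Psi (T - s, x)).2.1)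
    {ν ν' : ℝ → P4} (hν0 : ν 0 = (T - s / 2, x))
    (hν : ∀ τ ∈ Icc (0:ℝ) 1, HasDerivAt ν (ν' τ) τ) (hV : ∀ τ ∈ Icc (0:ℝ) 1, ν τ ∈ V)
    (hE : ∀ τ ∈ Icc (0:ℝ) 1, ‖ν τ - (T, x)‖ < δ)
    (hT : ∀ τ ∈ Icc (0:ℝ) 1, G (ν τ) (ν' τ) (ν' τ) < 0) (hp : ∀ τ ∈ Icc (0:ℝ) 1, 0 < (ν' τ).1)
    (hη2 : ∀ τ ∈ Icc (0:ℝ) 1, ‖Psi (ν τ) - p0‖ ≤ η ∧ (Psi (ν τ)).2.1 ≤ vs ∧
      (Psi (ν τ)).2.2.1 ≤ pu + Cx * s)
    (hωs : 64 * ω * (2 * δ) ≤ s) :
    ∀ τ ∈ Icc (0:ℝ) 1, (0 < (ν τ - (T - s, x)).1 ∧ ∀ z, ‖z - (T, x)‖ < δ →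
        G z (ν τ - (T - s, x)) (ν τ - (T - s, x)) < 0) ∧ InV V (T - s, x) (ν τ) ∧
      ‖ν τ - (T, x)‖ ≤ 289 * C ^ 2 * Cx ^ 2 * s := by
  set E : P4 := (T, x) with hEdef
  set a : P4 := (T - s, x) with ha
  set a' : P4 := (T - s / 2, x) with ha'
  have haa' : ∀ z : P4, z - a = (z - a') + (s / 2) • Tv := by
    intro z
    rw [ha, ha']
    ext
    · simp only [Prod.fst_sub, Tv, Prod.smul_mk, smul_eq_mul, mul_one, mul_zero, Prod.fst_add]; ring
    · simp only [Prod.snd_sub, Prod.fst_sub, Tv, Prod.smul_mk, smul_eq_mul, mul_one, mul_zero, Prod.snd_add, Prod.fst_add, add_zero]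
    · simp only [Prod.snd_sub, Prod.fst_sub, Tv, Prod.smul_mk, smul_eq_mul, mul_one, mul_zero, Prod.snd_add, Prod.fst_add, add_zero]
    · simp only [Prod.snd_sub, Tv, Prod.smul_mk, smul_eq_mul, mul_one, mul_zero, Prod.snd_add, add_zero]
  have haE : a - E = (-s) • Tv := by
    rw [ha, hEdef]
    ext <;> simp only [Prod.mk_sub_mk, sub_sub_cancel_left, sub_self, Tv, neg_smul, Prod.smul_mk, smul_eq_mul, mul_one, mul_zero, Prod.neg_mk, neg_zero, Prod.fst_zero, Prod.snd_zero]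
  have haEn : ‖a - E‖ = s := by
    rw [haE, norm_smul, norm_Tv, mul_one, Real.norm_eq_abs, abs_neg, abs_of_pos hs]
  have ha'E : a' - E = (-(s / 2)) • Tv := by
    rw [ha', hEdef]
    ext <;> simp only [Prod.mk_sub_mk, sub_sub_cancel_left, sub_self, Tv, neg_smul, Prod.smul_mk, smul_eq_mul, mul_one, mul_zero, Prod.neg_mk, neg_zero, Prod.fst_zero, Prod.snd_zero]
  have ha'En : ‖a' - E‖ = s / 2 := by
    rw [ha'E, norm_smul, norm_Tv, mul_one, Real.norm_eq_abs, abs_neg, abs_of_pos (by linarith only [hs])]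
  -- displacement
  have hD1 : ∀ τ ∈ Icc (0:ℝ) 1, 0 ≤ (ν τ - a').1 := by
    intro τ hτ
    have h1 : ∀ t ∈ Icc (0:ℝ) τ, HasDerivAt (fun t => (ν t).1) (ν' t).1 t :=
      fun t ht => (hν t ⟨ht.1, ht.2.trans hτ.2⟩).fst
    have h2 : ∀ t ∈ Icc (0:ℝ) τ, HasDerivAt (fun _ : ℝ => (0:ℝ)) ((fun _ => (0:ℝ)) t) t :=
      fun t _ => hasDerivAt_const t 0
    have := le_of_deriv hτ.1 h2 h1 (fun t ht => (hp t ⟨ht.1, ht.2.trans hτ.2⟩).le)
    rw [hν0] at this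
    have e : (ν τ - a').1 = (ν τ).1 - a'.1 := rfl
    rw [e]
    linarith only [this]
  have hD2 : ∀ τ ∈ Icc (0:ℝ) 1, (ν τ - a').1 ≤ 2 * δ := by
    intro τ hτ
    have h1 : ν τ - a' = (ν τ - E) - (a' - E) := by abel
    have h2 : (ν τ - a').1 ≤ ‖ν τ - a'‖ := (Real.le_norm_self _).trans (norm_fst_le (ν τ - a'))
    have h3 : ‖ν τ - a'‖ ≤ ‖ν τ - E‖ + ‖a' - E‖ := by
      rw [h1]; exact norm_sub_le _ _
    rw [ha'En] at h3
    linarith only [hs, hsδ, h2, h3, hE τ hτ]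
  have hclose : ∀ τ ∈ Icc (0:ℝ) 1, ∀ z, ‖z - E‖ < δ →
      G z (ν τ - a) (ν τ - a) ≤ -(s / 16 * (ν τ - a).1) := by
    intro τ hτ z hz
    have h1 := hN.disp_close (ω := ω) (s := s / 2) (D := ν τ - a') hω hω1 (hD1 τ hτ) (by
        intro b hb hb1
        have := H.disp_curve hω hcl (ν := ν) (ν' := ν') hτ.1
          (fun t ht => hν t ⟨ht.1, ht.2.trans hτ.2⟩) (fun t ht => hV t ⟨ht.1, ht.2.trans hτ.2⟩)
          (fun t ht => hE t ⟨ht.1, ht.2.trans hτ.2⟩) (fun t ht => hT t ⟨ht.1, ht.2.trans hτ.2⟩)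
          (fun t ht => hp t ⟨ht.1, ht.2.trans hτ.2⟩) b hb hb1
        rwa [hν0] at this)
      (by linarith only [hs]) (by
        have : 32 * ω * (ν τ - a').1 ≤ 32 * ω * (2 * δ) := by
          have := hD2 τ hτ
          (clear * - hω this; gcongr)
        linarith only [hωs, this]) (hcl z hz)
    rw [haa']
    refine h1.trans (le_of_eq ?_)
    have : ((ν τ - a') + (s / 2) • Tv).1 = (ν τ - a').1 + s / 2 := by simp only [Tv, Prod.smul_mk, smul_eq_mul, mul_one, mul_zero, Prod.fst_add, Prod.fst_sub]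
    rw [this]; ring
  have hpos : ∀ τ ∈ Icc (0:ℝ) 1, 0 < (ν τ - a).1 := by
    intro τ hτ
    rw [haa']
    have : ((ν τ - a') + (s / 2) • Tv).1 = (ν τ - a').1 + s / 2 := by simp only [Tv, Prod.smul_mk, smul_eq_mul, mul_one, mul_zero, Prod.fst_add, Prod.fst_sub]
    rw [this]
    linarith only [hs, hD1 τ hτ]
  have hTS : ∀ τ ∈ Icc (0:ℝ) 1, TSeg G a (ν τ) := by
    intro τ hτ
    refine ⟨fun t ht => ?_, hpos τ hτ⟩
    have h1 := hclose τ hτ (a + t • (ν τ - a)) (ball_segE (by rw [haEn]; exact hsδ) (hE τ hτ) ht)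
    have h2 : 0 < s / 16 * (ν τ - a).1 := mul_pos (by linarith only [hs]) (hpos τ hτ)
    linarith only [h1, h2]
  have haV := hline (T - s) ⟨le_rfl, by linarith only [hs]⟩
  -- the segments are in V
  have hcn : ContinuousOn ν (Icc 0 1) := fun τ hτ => (hν τ hτ).continuousAt.continuousWithinAt
  have hproj : Continuous (fun l : ℝ => ((projIcc (0:ℝ) 1 zero_le_one l : Icc (0:ℝ) 1) : ℝ)) :=
    continuous_subtype_val.comp continuous_projIcc
  have hcb : Continuous (fun l : ℝ => ν (projIcc (0:ℝ) 1 zero_le_one l)) :=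
    hcn.comp_continuous hproj (fun l => (projIcc (0:ℝ) 1 zero_le_one l).2)
  have hpr : ∀ l ∈ Icc (0:ℝ) 1, ((projIcc (0:ℝ) 1 zero_le_one l : Icc (0:ℝ) 1) : ℝ) = l :=
    fun l hl => by rw [projIcc_of_mem _ hl]
  have hin : ∀ τ ∈ Icc (0:ℝ) 1, InV V a (ν τ) := by
    intro τ hτ
    have key := H.pushG (η := η) (vs := vs) hη hvs (a := fun _ => a)
      (b := fun l => ν (projIcc (0:ℝ) 1 zero_le_one l)) continuous_const hcb
      (fun l hl => by rw [hpr l hl]; exact hTS l hl) (fun l _ => haV)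
      (fun l hl => by rw [hpr l hl]; exact ⟨hV l hl, (hη2 l hl).1, (hη2 l hl).2.1⟩)
      (by
        rw [hpr 0 ⟨le_rfl, zero_le_one⟩, hν0]
        intro t ht
        have : a + t • (a' - a) = (T - s + t * (s / 2), x) := by
          refine Prod.ext ?_ ?_
          · show T - s + t * ((T - s / 2) - (T - s)) = T - s + t * (s / 2)
            ring
          · show x + t • (x - x) = x
            simp
        rw [this]
        have h1 : 0 ≤ t * (s / 2) := mul_nonneg ht.1 (by linarith only [hs])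
        have h2 : t * (s / 2) ≤ 1 * (s / 2) := mul_le_mul_of_nonneg_right ht.2 (by linarith only [hs])
        exact (hline _ ⟨by linarith only [h1], by linarith only [h2]⟩).1) τ hτ
    rwa [hpr τ hτ] at key
  intro τ hτ
  refine ⟨⟨hpos τ hτ, fun z hz => ?_⟩, hin τ hτ, ?_⟩
  · have h1 := hclose τ hτ z hz
    have h2 : 0 < s / 16 * (ν τ - a).1 := mul_pos (by linarith only [hs]) (hpos τ hτ)
    linarith only [h1, h2]
  have hw := hpos τ hτ
  set w1 := (ν τ - a).1 with hw1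
  set m := Real.sqrt (s / 16 * w1) with hm
  have hm2 : m ^ 2 = s / 16 * w1 := Real.sq_sqrt (by (clear * - hs hw; positivity))
  have hm0 : 0 ≤ m := Real.sqrt_nonneg _
  have hlen := H.len_upG (hTS τ hτ) (hin τ hτ) (m := m) (fun t ht => by
    rw [hm2]
    exact hclose τ hτ _ (ball_segE (by rw [haEn]; exact hsδ) (hE τ hτ) ht))
  have hC := H.one_le
  have hC0 : 0 < C := by linarith only [hω, hω1, hC]
  have hvb := (H.maps _ (hV τ hτ)).2
  have hub := (hη2 τ hτ).2.2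
  have h3 : m ≤ 3 * C * Cx * s := by
    calc m ≤ _ := hlen
      _ ≤ C * (3 * (Cx * s)) := by
        gcongr
        linarith only [hua, hva, hvb, hub]
      _ = _ := by ring
  have h4 : s / 16 * w1 ≤ (3 * C * Cx * s) ^ 2 := by
    rw [← hm2]
    (clear * - hs hw h3; gcongr)
  have h5 : w1 ≤ 144 * C ^ 2 * Cx ^ 2 * s := by
    have h6 : s * w1 ≤ s * (144 * C ^ 2 * Cx ^ 2 * s) := by linarith only [h4]
    exact le_of_mul_le_mul_left h6 hs
  have h7 : ‖ν τ - a‖ ≤ 2 * w1 := by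
    have h8 := (hTS τ hτ).1 0 ⟨le_rfl, zero_le_one⟩
    simp only [zero_smul, add_zero] at h8
    have := (H.nearV haV.1).norm_le_of_causal h8.le
    rwa [abs_of_pos hw] at this
  have h9 : ν τ - E = (ν τ - a) + (a - E) := by abel
  have h10 : ‖ν τ - E‖ ≤ 2 * w1 + s := by
    rw [h9]
    refine (norm_add_le _ _).trans ?_
    rw [haEn]
    linarith only [h7]
  have h11 : 1 ≤ C ^ 2 * Cx ^ 2 := by
    have h12 : 1 ≤ C ^ 2 := one_le_pow₀ hC
    have h13 : 1 ≤ Cx ^ 2 := one_le_pow₀ hCx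
    nlinarith only [h12, h13]
  have h14 : s ≤ C ^ 2 * Cx ^ 2 * s := by nlinarith only [hs, h11]
  linarith only [h5, h10, h14]

end SHyp

end Vale.Agent.P354
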