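import Vale.Agent.P354y.Lat

set_option maxSynthPendingDepth 3

open Set Filter Topology

namespace Vale.Agent.P354

namespace SHyp

variable {K : Coef} {G : P4 → P4 →L[ℝ] P4 →L[ℝ] ℝ} {Psi Phi : P4 → P4} {V : Set P4}
  {R0 ρ C : ℝ} {p0 : P4}

lemma image_ball (H : SHyp K G Psi Phi V R0 ρ C p0) (E : P4) (r : ℝ) :
    IsOpen (Psi '' (V ∩ Metric.ball E r)) := by
  have h1 : Psi '' (V ∩ Metric.ball E r) = Psi '' V ∩ Phi ⁻¹' Metric.ball E r := by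
    ext y
    constructor
    · rintro ⟨z, ⟨hz, hb⟩, rfl⟩
      exact ⟨⟨z, hz, rfl⟩, by rw [mem_preimage, H.inv z hz]; exact hb⟩
    · rintro ⟨hy, hb⟩
      obtain ⟨h1, h2⟩ := H.Phi_mem hy
      exact ⟨Phi y, ⟨h1, hb⟩, h2⟩
  rw [h1]
  exact H.phi.continuousOn.isOpen_inter_preimage H.opn Metric.isOpen_ball

/-- Lifting of timelike curves which start on the good vertical line. -/
lemma lift_gen (H : SHyp K G Psi Phi V R0 ρ C p0) {x : ℝ × ℝ × ℝ} {T Cx δ ω s η vs pu r1 : ℝ}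
    (hω : 0 < ω) (hω1 : ω ≤ 1 / 100) (hcl : CloseTo G (T, x) δ ω) (hN : NearM (G (T, x)))
    (hs : 0 < s) (hsδ : s < δ) (hCx : 1 ≤ Cx) (hη : 5 * C * η < ρ) (hηρ : η < ρ) (hvs : vs < 0)
    (hline : ∀ t ∈ Icc (T - s) (T - s / 2), ((t, x) : P4) ∈ V ∧ ‖Psi (t, x) - p0‖ ≤ η)
    (hua : pu - Cx * s ≤ (Psi (T - s, x)).2.2.1) (hva : -(Cx * s) ≤ (Psi (T - s, x)).2.1)
    (hωs : 64 * ω * (2 * δ) ≤ s) (hr1 : r1 < δ) (hr1s : 289 * C ^ 2 * Cx ^ 2 * s < r1)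
    (hsr : s ≤ r1) (hR : Metric.closedBall ((T, x) : P4) r1 ⊆ Metric.ball 0 R0)
    {c c' : ℝ → P4} (hc0 : c 0 = Psi (T - s / 2, x))
    (hc : ∀ τ ∈ Icc (0:ℝ) 1, HasDerivAt c (c' τ) τ)
    (hK : ∀ τ ∈ Icc (0:ℝ) 1, c τ ∈ KB p0 η vs)
    (hT : ∀ τ ∈ Icc (0:ℝ) 1, K.gF (c τ) (c' τ) (c' τ) < 0)
    (hv : ∀ τ ∈ Icc (0:ℝ) 1, 0 < (c' τ).2.1)
    (hu : ∀ τ ∈ Icc (0:ℝ) 1, (c τ).2.2.1 ≤ pu + Cx * s) :
    c 1 ∈ Psi '' V ∧ (0 < (Phi (c 1) - (T - s, x)).1 ∧ ∀ z, ‖z - (T, x)‖ < δ →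
        G z (Phi (c 1) - (T - s, x)) (Phi (c 1) - (T - s, x)) < 0) ∧
      InV V (T - s, x) (Phi (c 1)) ∧
      ‖Phi (c 1) - (T, x)‖ ≤ 289 * C ^ 2 * Cx ^ 2 * s := by
  set E : P4 := (T, x) with hEdef
  obtain ⟨F, hF, hVF⟩ := H.cl _ (KB_compact p0 η vs) (KB_sub hηρ hvs)
  set Q : Set P4 := Psi '' (V ∩ Psi ⁻¹' KB p0 η vs ∩ Metric.closedBall E r1) with hQ
  have hcomp : IsCompact (V ∩ Psi ⁻¹' KB p0 η vs ∩ Metric.closedBall E r1) := by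
    have h1 : V ∩ Psi ⁻¹' KB p0 η vs ∩ Metric.closedBall E r1 = F ∩ Metric.closedBall E r1 := by
      rw [hVF]
      ext z
      constructor
      · rintro ⟨⟨_, h⟩, h'⟩; exact ⟨h, h'⟩
      · rintro ⟨h, h'⟩; exact ⟨⟨hR h', h⟩, h'⟩
    rw [h1]
    exact (isCompact_closedBall E r1).inter_left hF
  have hQc : IsCompact Q :=
    hcomp.image_of_continuousOn (H.iso.smooth.continuousOn.mono fun z hz => hz.1.1)
  have hQb : ∀ y, y ∈ Psi '' (V ∩ Metric.ball E r1) → y ∈ KB p0 η vs → y ∈ Q := by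
    rintro y ⟨z, ⟨hz, hb⟩, rfl⟩ hy
    exact ⟨z, ⟨⟨hz, hy⟩, Metric.ball_subset_closedBall hb⟩, rfl⟩
  have hQV : ∀ y, y ∈ Q → y ∈ Psi '' V ∧ ‖Phi y - E‖ ≤ r1 := by
    rintro y ⟨z, ⟨⟨hz, _⟩, hb⟩, rfl⟩
    refine ⟨⟨z, hz, rfl⟩, ?_⟩
    rw [H.inv z hz]
    rwa [mem_closedBall_iff_norm] at hb
  have hcn : ContinuousOn c (Icc 0 1) := fun τ hτ => (hc τ hτ).continuousAt.continuousWithinAt
  have hproj : Continuous (fun l : ℝ => ((projIcc (0:ℝ) 1 zero_le_one l : Icc (0:ℝ) 1) : ℝ)) :=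
    continuous_subtype_val.comp continuous_projIcc
  set ct : ℝ → P4 := fun l => c (projIcc (0:ℝ) 1 zero_le_one l) with hct
  have hcb : Continuous ct :=
    hcn.comp_continuous hproj (fun l => (projIcc (0:ℝ) 1 zero_le_one l).2)
  have hpr : ∀ l ∈ Icc (0:ℝ) 1, ct l = c l := by
    intro l hl
    show c (projIcc (0:ℝ) 1 zero_le_one l) = c l
    rw [projIcc_of_mem _ hl]
  have hmul : ∀ l ∈ Icc (0:ℝ) 1, ∀ τ ∈ Icc (0:ℝ) 1, l * τ ∈ Icc (0:ℝ) 1 := by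
    intro l hl τ hτ
    refine ⟨mul_nonneg hl.1 hτ.1, ?_⟩
    calc l * τ ≤ 1 * 1 := mul_le_mul hl.2 hτ.2 hτ.1 zero_le_one
      _ = 1 := one_mul 1
  have ha' : ((T - s / 2, x) : P4) - E = (-(s / 2)) • Tv := by
    rw [hEdef]
    ext <;> simp only [Prod.mk_sub_mk, sub_sub_cancel_left, sub_self, Tv, neg_smul, Prod.smul_mk, smul_eq_mul, mul_one, mul_zero, Prod.neg_mk, neg_zero, Prod.fst_zero, Prod.snd_zero]
  have ha'En : ‖((T - s / 2, x) : P4) - E‖ = s / 2 := by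
    rw [ha', norm_smul, norm_Tv, mul_one, Real.norm_eq_abs, abs_neg, abs_of_pos (by linarith only [hs])]
  have ha'V : ((T - s / 2, x) : P4) ∈ V := (hline _ ⟨by linarith only [hs], le_rfl⟩).1
  have hc0Q : c 0 ∈ Psi '' (V ∩ Metric.ball E r1) := by
    refine ⟨(T - s / 2, x), ⟨ha'V, ?_⟩, hc0.symm⟩
    rw [mem_ball_iff_norm, ha'En]
    linarith only [hs, hsr]
  -- the conclusion of the lateral bound
  have step : ∀ τ ∈ Ioc (0:ℝ) 1, (∀ l ∈ Icc (0:ℝ) 1, ct (l * τ) ∈ Q) →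
      ∀ l ∈ Icc (0:ℝ) 1, (0 < (Phi (c (l * τ)) - (T - s, x)).1 ∧ ∀ z, ‖z - E‖ < δ →
        G z (Phi (c (l * τ)) - (T - s, x)) (Phi (c (l * τ)) - (T - s, x)) < 0) ∧
        InV V (T - s, x) (Phi (c (l * τ))) ∧
        ‖Phi (c (l * τ)) - E‖ ≤ 289 * C ^ 2 * Cx ^ 2 * s := by
    intro τ hτ hS
    have hτ' : τ ∈ Icc (0:ℝ) 1 := ⟨hτ.1.le, hτ.2⟩
    have hmQ : ∀ l ∈ Icc (0:ℝ) 1, c (l * τ) ∈ Q := by
      intro l hl
      have := hS l hl
      rwa [hpr _ (hmul l hl τ hτ')] at this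
    have hd : ∀ l ∈ Icc (0:ℝ) 1, HasDerivAt (fun l => c (l * τ)) (τ • c' (l * τ)) l := by
      intro l hl
      have h1 : HasDerivAt (fun l : ℝ => l * τ) τ l := by
        simpa using (hasDerivAt_id l).mul_const τ
      exact (hc _ (hmul l hl τ hτ')).scomp l h1
    have hlift := fun l (hl : l ∈ Icc (0:ℝ) 1) =>
      H.lift_deriv (ν := fun l => c (l * τ)) (hd l hl) (hQV _ (hmQ l hl)).1
    have hneg : ∀ l ∈ Icc (0:ℝ) 1,
        K.gF (c (l * τ)) (τ • c' (l * τ)) (τ • c' (l * τ)) < 0 := by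
      intro l hl
      have h1 := hT _ (hmul l hl τ hτ')
      have h2 : K.gF (c (l * τ)) (τ • c' (l * τ)) (τ • c' (l * τ)) =
          τ ^ 2 * K.gF (c (l * τ)) (c' (l * τ)) (c' (l * τ)) := by
        simp only [Coef.gF, Coef.h1, Coef.h2, Prod.smul_fst, Prod.smul_snd, smul_eq_mul]
        ring
      rw [h2]
      have h3 : 0 < τ ^ 2 := pow_pos hτ.1 2
      nlinarith only [h1, h3]
    have hvp : ∀ l ∈ Icc (0:ℝ) 1, 0 < (τ • c' (l * τ)).2.1 := by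
      intro l hl
      have : (τ • c' (l * τ)).2.1 = τ * (c' (l * τ)).2.1 := rfl
      rw [this]
      exact mul_pos hτ.1 (hv _ (hmul l hl τ hτ'))
    have hvel := fun l (hl : l ∈ Icc (0:ℝ) 1) =>
      H.lift_vel (hQV _ (hmQ l hl)).1 (hneg l hl) (hvp l hl) (hlift l hl).2
    refine H.lateral (ν := fun l => Phi (c (l * τ)))
      (ν' := fun l => fderiv ℝ Phi (c (l * τ)) (τ • c' (l * τ))) hω hω1 hcl hN hs hsδ hCx hη hvs
      hline hua hva ?_ (fun l hl => (hlift l hl).1) ?_ ?_ ?_ (fun l hl => (hvel l hl).1) ?_ hωs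
    · show Phi (c (0 * τ)) = _
      rw [zero_mul, hc0, H.inv _ ha'V]
    · intro l hl
      exact (H.Phi_mem (hQV _ (hmQ l hl)).1).1
    · intro l hl
      exact (hQV _ (hmQ l hl)).2.trans_lt hr1
    · intro l hl
      obtain ⟨h1, h2⟩ := H.Phi_mem (hQV _ (hmQ l hl)).1
      show G (Phi (c (l * τ))) _ _ < 0
      rw [H.iso.iso _ h1, h2, (hlift l hl).2]
      exact hneg l hl
    · intro l hl
      obtain ⟨h1, h2⟩ := H.Phi_mem (hQV _ (hmQ l hl)).1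
      have h3 := hK _ (hmul l hl τ hτ')
      show ‖Psi (Phi (c (l * τ))) - p0‖ ≤ η ∧ (Psi (Phi (c (l * τ)))).2.1 ≤ vs ∧ _
      rw [h2]
      exact ⟨h3.1, h3.2, hu _ (hmul l hl τ hτ')⟩
  set S : Set ℝ := {τ | ∀ l ∈ Icc (0:ℝ) 1, ct (l * τ) ∈ Q} with hS
  have hclosed : IsClosed (S ∩ Icc 0 1) := by
    have : S = ⋂ l ∈ Icc (0:ℝ) 1, (fun τ => ct (l * τ)) ⁻¹' Q := by
      ext τ; simp only [hS, mem_Icc, and_imp, mem_ofPred_eq, mem_iInter, mem_preimage]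
    rw [this]
    refine IsClosed.inter (isClosed_biInter fun l _ => ?_) isClosed_Icc
    exact hQc.isClosed.preimage (hcb.comp (continuous_const.mul continuous_id))
  have key : Icc (0:ℝ) 1 ⊆ S := by
    refine hclosed.Icc_subset_of_forall_mem_nhdsWithin ?_ ?_
    · intro l hl
      rw [mul_zero, hpr 0 ⟨le_rfl, zero_le_one⟩]
      exact hQb _ hc0Q (hK 0 ⟨le_rfl, zero_le_one⟩)
    · rintro τ ⟨hτS, hτ⟩
      refine mem_nhdsWithin_of_mem_nhds ?_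
      have hmem : ∀ l ∈ Icc (0:ℝ) 1, ct (l * τ) ∈ Psi '' (V ∩ Metric.ball E r1) := by
        intro l hl
        rcases eq_or_lt_of_le hτ.1 with h0 | h0
        · rw [← h0, mul_zero, hpr 0 ⟨le_rfl, zero_le_one⟩]
          exact hc0Q
        · have h1 := (step τ ⟨h0, hτ.2.le⟩ hτS l hl).2.2
          have h2 := hτS l hl
          have h3 : l * τ ∈ Icc (0:ℝ) 1 := hmul l hl τ ⟨h0.le, hτ.2.le⟩
          rw [hpr _ h3] at h2 ⊢
          obtain ⟨h4, h5⟩ := H.Phi_mem (hQV _ h2).1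
          refine ⟨Phi (c (l * τ)), ⟨h4, ?_⟩, h5⟩
          rw [mem_ball_iff_norm]
          linarith only [hr1s, h1]
      have hev := isCompact_Icc.eventually_forall_of_forall_eventually (x₀ := τ)
        (K := Icc (0:ℝ) 1) (P := fun τ l => ct (l * τ) ∈ Psi '' (V ∩ Metric.ball E r1)) (by
          intro l hl
          have hcc : Continuous (fun p : ℝ × ℝ => ct (p.2 * p.1)) :=
            hcb.comp (continuous_snd.mul continuous_fst)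
          exact hcc.continuousAt.eventually ((H.image_ball E r1).mem_nhds (hmem l hl)))
      filter_upwards [hev] with τ' h l hl
      refine hQb _ (h l hl) ?_
      exact hK _ (projIcc (0:ℝ) 1 zero_le_one (l * τ')).2
  have hS1 : (1:ℝ) ∈ S := key ⟨zero_le_one, le_rfl⟩
  have hfin := step 1 ⟨zero_lt_one, le_rfl⟩ hS1 1 ⟨zero_le_one, le_rfl⟩
  have h2 := hS1 1 ⟨zero_le_one, le_rfl⟩
  simp only [mul_one] at hfin h2
  rw [hpr _ ⟨zero_le_one, le_rfl⟩] at h2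
  exact ⟨(hQV _ h2).1, hfin⟩

end SHyp

end Vale.Agent.P354
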