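import Vale.Agent.P354y.Pert
import Vale.Agent.P354.CoreDD

set_option maxSynthPendingDepth 3

open Set Filter Topology

namespace Vale.Agent.P354

/-- A curve with bounded velocity has an end point. -/
lemma exists_limit {φ : ℝ → P4} {T t0 A : ℝ} (ht : t0 < T) (hA : 0 < A)
    (h : ∀ t ∈ Ico t0 T, ∀ t' ∈ Ico t0 T, t ≤ t' → ‖φ t' - φ t‖ ≤ A * (t' - t)) :
    ∃ p, Tendsto φ (𝓝[<] T) (𝓝 p) := by
  have hc : Cauchy (map φ (𝓝[<] T)) := by
    rw [Metric.cauchy_iff]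
    refine ⟨inferInstance, fun ε hε => ?_⟩
    set t1 := max t0 (T - ε / (2 * A)) with ht1
    have h1 : t1 < T := max_lt ht (by have : 0 < ε / (2 * A) := by positivity
                                      linarith only [this])
    refine ⟨φ '' Ico t1 T, image_mem_map (Ico_mem_nhdsLT h1), ?_⟩
    have key : ∀ t ∈ Ico t1 T, ∀ t' ∈ Ico t1 T, t ≤ t' → dist (φ t') (φ t) < ε := by
      intro t hti t' hti' htt
      rw [dist_eq_norm]
      have h2 := h t ⟨(le_max_left _ _).trans hti.1, hti.2⟩ t' ⟨(le_max_left _ _).trans hti'.1,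
        hti'.2⟩ htt
      have h3 : t' - t ≤ ε / (2 * A) := by
        have := (le_max_right t0 (T - ε / (2 * A))).trans hti.1
        linarith only [this, hti'.2]
      calc ‖φ t' - φ t‖ ≤ A * (ε / (2 * A)) := h2.trans (by gcongr)
        _ = ε / 2 := by field_simp
        _ < ε := by linarith only [hε]
    rintro _ ⟨t, ht, rfl⟩ _ ⟨t', ht', rfl⟩
    rcases le_total t t' with h4 | h4
    · rw [dist_comm]; exact key t ht t' ht' h4
    · exact key t' ht' t ht h4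
  obtain ⟨p, hp⟩ := CompleteSpace.complete hc
  exact ⟨p, hp⟩

namespace SHyp

variable {K : Coef} {G : P4 → P4 →L[ℝ] P4 →L[ℝ] ℝ} {Psi Phi : P4 → P4} {V : Set P4}
  {R0 ρ C : ℝ} {p0 : P4}

/-- bounds of the velocity of the image of a good vertical line -/
lemma good_vel (H : SHyp K G Psi Phi V R0 ρ C p0) {z : P4} (hz : z ∈ V) {A : ℝ} (hA : 1 ≤ A)
    (hb : ‖fderiv ℝ Psi z Tv‖ ≤ A) :
    K.gF (Psi z) (fderiv ℝ Psi z Tv) (fderiv ℝ Psi z Tv) ≤ -(1 / 2) ∧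
      0 < (fderiv ℝ Psi z Tv).2.1 ∧ 1 / (4 * C * A) ≤ (fderiv ℝ Psi z Tv).2.1 := by
  have hc := H.cbd hz
  have hTc : Tv ∈ cone (1 / 4) := by simp only [one_div, Tv, mem_cone, Prod.norm_mk, norm_zero, max_self, mul_one, inv_nonneg, Nat.ofNat_nonneg]
  have h1 := (H.nearV hz).timelike_of_cone hTc
  have h2 : (Tv : P4).1 = 1 := rfl
  rw [h2, H.iso.iso z hz] at h1
  have h3 := H.beta z hz
  have h4 : K.gF (Psi z) (fderiv ℝ Psi z Tv) (fderiv ℝ Psi z Tv) ≤ -(1 / 2) := by linarith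
  refine ⟨h4, h3, ?_⟩
  have h5 := hc.u_pos (by linarith only [h1]) h3
  have h6 := h4
  rw [gF_diag] at h6
  have hQ := hc.Q_nonneg (K.h1 (Psi z) (fderiv ℝ Psi z Tv)) (K.h2 (Psi z) (fderiv ℝ Psi z Tv))
  have h7 : K.om (Psi z) * ((fderiv ℝ Psi z Tv).2.1 * (fderiv ℝ Psi z Tv).2.2.1) ≤
      C * ((fderiv ℝ Psi z Tv).2.1 * A) := by
    have h8 : (fderiv ℝ Psi z Tv).2.2.1 ≤ A :=
      (le_abs_self _).trans ((norm_P4_le.1 hb).2.2.1)
    have := hc.om_hi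
    have := hc.C_pos
    gcongr
  have hC0 := hc.C_pos
  rw [div_le_iff₀ (by positivity)]
  linarith only [h6, hQ, h7]

/-- the facts on a good vertical line -/
structure GoodL (K : Coef) (Psi : P4 → P4) (V : Set P4) (p0 : P4) (x : P3) (t0 T c A η : ℝ)
    (ps : P4) : Prop where
  lt : t0 < T
  c_pos : 0 < c
  one : 1 ≤ A
  mem : ∀ t ∈ Ico t0 T, ((t, x) : P4) ∈ V
  bd : ∀ t ∈ Ico t0 T, ‖Psi (t, x) - p0‖ ≤ η
  vel : ∀ t ∈ Ico t0 T, HasDerivAt (fun t : ℝ => Psi ((t, x) : P4)) (fderiv ℝ Psi (t, x) Tv) t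
  good : ∀ t ∈ Ico t0 T, ‖fderiv ℝ Psi (t, x) Tv‖ ≤ A
  neg : ∀ t ∈ Ico t0 T, K.gF (Psi (t, x)) (fderiv ℝ Psi (t, x) Tv)
    (fderiv ℝ Psi (t, x) Tv) ≤ -(1 / 2)
  vpos : ∀ t ∈ Ico t0 T, 0 < (fderiv ℝ Psi (t, x) Tv).2.1
  vinc : ∀ t ∈ Ico t0 T, ∀ t' ∈ Ico t0 T, t ≤ t' →
    c * (t' - t) ≤ (Psi (t', x)).2.1 - (Psi (t, x)).2.1
  lim : ∀ t ∈ Ico t0 T, ‖ps - Psi (t, x)‖ ≤ A * (T - t)
  ps0 : ps.2.1 = 0
  vT : ∀ t ∈ Ico t0 T, c * (T - t) ≤ -(Psi (t, x)).2.1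
  uT : ∀ t ∈ Ico t0 T, (Psi (t, x)).2.2.1 ≤ ps.2.2.1
  exit : ∀ v2 < 0, ∃ t ∈ Ico t0 T, v2 < (Psi (t, x)).2.1

lemma exists_goodL (H : SHyp K G Psi Phi V R0 ρ C p0) {t0 T η : ℝ} {x : P3} (htT : t0 < T)
    (hline : ∀ t ∈ Ico t0 T, ((t, x) : P4) ∈ V)
    (hexit : ∀ v2 < 0, ∃ t ∈ Ico t0 T, v2 < (Psi (t, x)).2.1)
    (hbd : ∀ t ∈ Ico t0 T, ‖Psi (t, x) - p0‖ ≤ η) {Cx : ℝ} (hCx : 1 ≤ Cx)
    (hgood : ∀ t ∈ Ico t0 T, ‖fderiv ℝ Psi (t, x) Tv‖ ≤ Cx) :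
    ∃ ps, GoodL K Psi V p0 x t0 T (1 / (4 * C * Cx)) Cx η ps := by
  have hC := H.one_le
  have hC0 : 0 < C := by linarith
  have hCx0 : 0 < Cx := by linarith only [hCx]
  have hvelv : ∀ t ∈ Ico t0 T, HasDerivAt (fun t : ℝ => Psi ((t, x) : P4))
      (fderiv ℝ Psi (t, x) Tv) t := by
    intro t ht
    have h1 : HasDerivAt (fun t : ℝ => ((t, x) : P4)) Tv t :=
      (hasDerivAt_id t).prodMk (hasDerivAt_const t x)
    exact (H.iso.hasFDerivAt (hline t ht)).comp_hasDerivAt t h1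
  have hLip : ∀ t ∈ Ico t0 T, ∀ t' ∈ Ico t0 T, t ≤ t' →
      ‖Psi (t', x) - Psi (t, x)‖ ≤ Cx * (t' - t) := by
    intro t ht t' ht' htt
    have h1 := norm_sub_le_of_deriv htt (f := fun t => Psi ((t, x) : P4))
      (f' := fun t => fderiv ℝ Psi (t, x) Tv) (g := fun t => Cx * t) (g' := fun _ => Cx)
      (fun τ hτ => hvelv τ ⟨ht.1.trans hτ.1, hτ.2.trans_lt ht'.2⟩)
      (fun τ _ => by simpa using (hasDerivAt_id τ).const_mul Cx)
      (fun τ hτ => hgood τ ⟨ht.1.trans hτ.1, hτ.2.trans_lt ht'.2⟩)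
    linarith only [h1]
  set cv : ℝ := 1 / (4 * C * Cx) with hcv
  have hcv0 : 0 < cv := by positivity
  have hvinc : ∀ t ∈ Ico t0 T, ∀ t' ∈ Ico t0 T, t ≤ t' →
      cv * (t' - t) ≤ (Psi (t', x)).2.1 - (Psi (t, x)).2.1 := by
    intro t ht t' ht' htt
    have h1 := le_of_deriv htt (f := fun t => cv * t) (f' := fun _ => cv)
      (g := fun t => (Psi ((t, x) : P4)).2.1) (g' := fun t => (fderiv ℝ Psi (t, x) Tv).2.1)
      (fun τ _ => by simpa only [id_eq, mul_one] using (hasDerivAt_id τ).const_mul cv)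
      (fun τ hτ => (hvelv τ ⟨ht.1.trans hτ.1, hτ.2.trans_lt ht'.2⟩).snd.fst)
      (fun τ hτ => (H.good_vel (hline τ ⟨ht.1.trans hτ.1, hτ.2.trans_lt ht'.2⟩) hCx
        (hgood τ ⟨ht.1.trans hτ.1, hτ.2.trans_lt ht'.2⟩)).2.2)
    linarith only [h1]
  obtain ⟨ps, hps⟩ := exists_limit htT hCx0 hLip
  have hpsd : ∀ t ∈ Ico t0 T, ‖ps - Psi (t, x)‖ ≤ Cx * (T - t) := by
    intro t ht
    have h1 : Tendsto (fun t' => ‖Psi ((t', x) : P4) - Psi (t, x)‖) (𝓝[<] T)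
        (𝓝 ‖ps - Psi (t, x)‖) := (hps.sub_const _).norm
    refine le_of_tendsto h1 ?_
    filter_upwards [Ico_mem_nhdsLT ht.2] with t' ht'
    refine (hLip t ht t' ⟨ht.1.trans ht'.1, ht'.2⟩ ht'.1).trans ?_
    have := ht'.2.le
    gcongr
  have hvlim : Tendsto (fun t => (Psi ((t, x) : P4)).2.1) (𝓝[<] T) (𝓝 ps.2.1) :=
    ((continuous_fst.comp continuous_snd).tendsto ps).comp hps
  have hps0 : ps.2.1 = 0 := by
    apply le_antisymm
    · refine le_of_tendsto hvlim ?_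
      filter_upwards [Ico_mem_nhdsLT htT] with t ht
      exact (H.maps _ (hline t ht)).2.le
    · by_contra hcon
      push Not at hcon
      obtain ⟨t, ht, htv⟩ := hexit _ hcon
      have h1 : (Psi (t, x)).2.1 ≤ ps.2.1 := by
        refine ge_of_tendsto hvlim ?_
        filter_upwards [Ico_mem_nhdsLT ht.2] with t' ht'
        have h2 := hvinc t ht t' ⟨ht.1.trans ht'.1, ht'.2⟩ ht'.1
        have h3 : 0 ≤ cv * (t' - t) := mul_nonneg hcv0.le (by linarith only [ht'.1])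
        linarith only [h2, h3]
      linarith only [htv, h1]
  have hvT : ∀ t ∈ Ico t0 T, cv * (T - t) ≤ -(Psi (t, x)).2.1 := by
    intro t ht
    have h1 : Tendsto (fun t' : ℝ => cv * (t' - t)) (𝓝[<] T) (𝓝 (cv * (T - t))) := by
      have hcc : Continuous (fun t' : ℝ => cv * (t' - t)) := by fun_prop
      exact (hcc.tendsto T).mono_left nhdsWithin_le_nhds
    refine le_of_tendsto h1 ?_
    filter_upwards [Ico_mem_nhdsLT ht.2] with t' ht'
    have h2 := hvinc t ht t' ⟨ht.1.trans ht'.1, ht'.2⟩ ht'.1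
    have h3 := (H.maps _ (hline t' ⟨ht.1.trans ht'.1, ht'.2⟩)).2
    linarith only [h2, h3]
  refine ⟨ps, htT, hcv0, hCx, hline, hbd, hvelv, hgood,
    fun t ht => (H.good_vel (hline t ht) hCx (hgood t ht)).1,
    fun t ht => (H.good_vel (hline t ht) hCx (hgood t ht)).2.1, hvinc, hpsd, hps0, hvT, ?_, hexit⟩
  intro t ht
  have hulim : Tendsto (fun t => (Psi ((t, x) : P4)).2.2.1) (𝓝[<] T) (𝓝 ps.2.2.1) :=
    ((continuous_fst.comp (continuous_snd.comp continuous_snd)).tendsto ps).comp hps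
  refine ge_of_tendsto hulim ?_
  filter_upwards [Ico_mem_nhdsLT ht.2] with t' ht'
  have h4 := H.rel_ends (vline_cone ht'.1 x) (vline_inV ht'.1
    (fun w hw => hline w ⟨ht.1.trans hw.1, hw.2.trans_lt ht'.2⟩))
  exact h4.2.1

/-- the time at which the value `v` is reached, and the difference of the points -/
lemma GoodL.time {x : P3} {t0 T c A η : ℝ} {ps : P4} (g : GoodL K Psi V p0 x t0 T c A η ps)
    {s e : ℝ} (hs : 0 < s) (he : 0 < e) (hsT : s ≤ T - t0) {q : P4}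
    (hq0 : -(c * min (s / 4) (e / (2 * A))) ≤ q.2.1) (hqneg : q.2.1 < 0)
    (hq1 : |q.1 - ps.1| < e / 2) (hq2 : |q.2.2.1 - ps.2.2.1| < e / 2)
    (hq3 : |q.2.2.2 - ps.2.2.2| < e / 2) :
    ∃ t2 ∈ Ico (T - s / 2) T, (Psi (t2, x)).2.1 = q.2.1 ∧ T - t2 ≤ s / 4 ∧
      ‖q - Psi (t2, x)‖ ≤ e := by
  have hcv0 := g.c_pos
  have hA0 : 0 < A := by linarith only [g.one]
  have hm1 : min (s / 4) (e / (2 * A)) ≤ s / 4 := min_le_left _ _
  have hm2 : min (s / 4) (e / (2 * A)) ≤ e / (2 * A) := min_le_right _ _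
  have hta' : T - s / 2 ∈ Ico t0 T := ⟨by linarith only [hs, hsT], by linarith only [hs]⟩
  obtain ⟨t2, ht2I, ht2v⟩ : ∃ t2 ∈ Ico (T - s / 2) T, (Psi (t2, x)).2.1 = q.2.1 := by
    obtain ⟨t3, ht3, ht3v⟩ := g.exit _ hqneg
    have h1 : (Psi (T - s / 2, x)).2.1 ≤ q.2.1 := by
      have h2 := g.vT _ hta'
      have h3 : c * min (s / 4) (e / (2 * A)) ≤ c * (s / 4) := by gcongr
      have h4 : T - (T - s / 2) = s / 2 := by ring
      rw [h4] at h2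
      have h5 : c * (s / 4) ≤ c * (s / 2) := by gcongr; norm_num
      linarith only [hq0, hqneg, h2, h3]
    have h2 : T - s / 2 ≤ t3 := by
      by_contra hcon
      push Not at hcon
      have h3 := g.vinc t3 ht3 _ hta' hcon.le
      have h4 : 0 ≤ c * (T - s / 2 - t3) := mul_nonneg hcv0.le (by linarith only [hcon])
      linarith only [ht3v, h1, h3, h4]
    have hcont : ContinuousOn (fun t => (Psi ((t, x) : P4)).2.1) (Icc (T - s / 2) t3) := by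
      intro t ht
      have h5 : HasDerivAt (fun t => (Psi ((t, x) : P4)).2.1) (fderiv ℝ Psi (t, x) Tv).2.1 t :=
        (g.vel t ⟨hta'.1.trans ht.1, ht.2.trans_lt ht3.2⟩).snd.fst
      exact h5.continuousAt.continuousWithinAt
    obtain ⟨t2, ht2, ht2v⟩ := intermediate_value_Icc h2 hcont (show q.2.1 ∈ _ from ⟨h1, ht3v.le⟩)
    exact ⟨t2, ⟨ht2.1, ht2.2.trans_lt ht3.2⟩, ht2v⟩
  have ht2 : t2 ∈ Ico t0 T := ⟨hta'.1.trans ht2I.1, ht2I.2⟩
  have hTt2 : T - t2 ≤ min (s / 4) (e / (2 * A)) := by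
    have h1 := g.vT t2 ht2
    rw [ht2v] at h1
    have h2 : c * (T - t2) ≤ c * min (s / 4) (e / (2 * A)) := by linarith only [hq0, h1]
    exact le_of_mul_le_mul_left h2 hcv0
  refine ⟨t2, ht2I, ht2v, hTt2.trans hm1, ?_⟩
  have h1 := g.lim t2 ht2
  have h2 : A * (T - t2) ≤ e / 2 := by
    calc A * (T - t2) ≤ A * (e / (2 * A)) := by
          have := hTt2.trans hm2
          gcongr
      _ = e / 2 := by field_simp
  obtain ⟨k1, k2, k3, k4⟩ := norm_P4_le.1 (h1.trans h2)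
  simp only [Prod.fst_sub, Prod.snd_sub] at k1 k2 k3 k4
  have tri : ∀ a b c : ℝ, |a - b| < e / 2 → |b - c| ≤ e / 2 → |a - c| ≤ e := by
    intro a b c h3 h4
    have : a - c = (a - b) + (b - c) := by ring
    rw [this]
    refine (abs_add_le _ _).trans ?_
    linarith only [h3, h4]
  refine norm_P4_le.2 ⟨tri _ _ _ hq1 k1, ?_, tri _ _ _ hq2 k3, tri _ _ _ hq3 k4⟩
  show |q.2.1 - (Psi (t2, x)).2.1| ≤ e
  rw [ht2v, sub_self, abs_zero]; exact he.le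

end SHyp

end Vale.Agent.P354
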