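import Vale.Agent.P354y.OpenA

set_option maxSynthPendingDepth 3

open Set Filter Topology

namespace Vale.Agent.P354

namespace SHyp

variable {K : Coef} {G : P4 → P4 →L[ℝ] P4 →L[ℝ] ℝ} {Psi Phi : P4 → P4} {V : Set P4}
  {R0 ρ C : ℝ} {p0 : P4}

lemma gF_smul_sq (K : Coef) (y w : P4) (b : ℝ) :
    K.gF y (b • w) (b • w) = b ^ 2 * K.gF y w w := by
  simp only [Coef.gF, Coef.h1, Coef.h2, Prod.smul_fst, Prod.smul_snd, smul_eq_mul]
  ring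

/-- the perturbed curve -/
lemma pert_curve (H : SHyp K G Psi Phi V R0 ρ C p0) {x : P3} {t0 T c A η : ℝ} {ps : P4}
    (g : GoodL K Psi V p0 x t0 T c A η ps) {s e η' : ℝ} (hs : 0 < s) (he : 0 < e)
    (hsT : s ≤ T - t0) (hee : η + e ≤ η') (hηρ : η' < ρ)
    (he1 : 224 * C ^ 4 * A ^ 2 * e ≤ 1) (he2 : 704 * C ^ 2 * A * e ≤ s) (he3 : e ≤ A * s) {q : P4}
    (hqneg : q.2.1 < 0) {t2 : ℝ} (ht2I : t2 ∈ Ico (T - s / 2) T)
    (ht2v : (Psi (t2, x)).2.1 = q.2.1) (ht2s : T - t2 ≤ s / 4) (hdn : ‖q - Psi (t2, x)‖ ≤ e) :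
    ∃ c c' : ℝ → P4, c 0 = Psi (T - s / 2, x) ∧ c 1 = q ∧
      (∀ τ ∈ Icc (0:ℝ) 1, HasDerivAt c (c' τ) τ) ∧ (∀ τ ∈ Icc (0:ℝ) 1, c τ ∈ KB p0 η' q.2.1) ∧
      (∀ τ ∈ Icc (0:ℝ) 1, K.gF (c τ) (c' τ) (c' τ) < 0) ∧
      (∀ τ ∈ Icc (0:ℝ) 1, 0 < (c' τ).2.1) ∧
      (∀ τ ∈ Icc (0:ℝ) 1, (c τ).2.2.1 ≤ ps.2.2.1 + A * s) := by
  have hta' : T - s / 2 ∈ Ico t0 T := ⟨by linarith only [hs, hsT], by linarith only [hs]⟩
  have ht2 : t2 ∈ Ico t0 T := ⟨hta'.1.trans ht2I.1, ht2I.2⟩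
  set b : ℝ := t2 - (T - s / 2) with hb
  have hbs : s / 4 ≤ b := by rw [hb]; linarith only [ht2s]
  have hb0 : 0 < b := by linarith only [hs, ht2s, hb]
  set d : P4 := q - Psi (t2, x) with hd
  have hd2 : d.2.1 = 0 := by
    have : d.2.1 = q.2.1 - (Psi (t2, x)).2.1 := rfl
    rw [this, ht2v, sub_self]
  set c1 : ℝ → P4 := fun τ => Psi (T - s / 2 + τ * b, x) + τ • d with hc
  set c' : ℝ → P4 := fun τ => b • fderiv ℝ Psi (T - s / 2 + τ * b, x) Tv + d with hc'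
  have htm : ∀ τ ∈ Icc (0:ℝ) 1, T - s / 2 + τ * b ∈ Ico t0 T ∧ T - s / 2 + τ * b ≤ t2 := by
    intro τ hτ
    have h1 : 0 ≤ τ * b := mul_nonneg hτ.1 hb0.le
    have h2 : τ * b ≤ 1 * b := mul_le_mul_of_nonneg_right hτ.2 hb0.le
    have h3 : T - s / 2 + τ * b ≤ t2 := by rw [hb] at h2 ⊢; linarith only [h2]
    exact ⟨⟨by linarith only [hs, hsT, h1], h3.trans_lt ht2.2⟩, h3⟩
  have hcv2 : ∀ τ, (c1 τ).2.1 = (Psi (T - s / 2 + τ * b, x)).2.1 := by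
    intro τ
    have : (c1 τ).2.1 = (Psi (T - s / 2 + τ * b, x)).2.1 + τ * d.2.1 := rfl
    rw [this, hd2, mul_zero, add_zero]
  have hcd : ∀ τ ∈ Icc (0:ℝ) 1, HasDerivAt c1 (c' τ) τ := by
    intro τ hτ
    have h1 : HasDerivAt (fun τ : ℝ => T - s / 2 + τ * b) b τ := by
      simpa using ((hasDerivAt_id τ).mul_const b).const_add (T - s / 2)
    have h2 := (g.vel _ (htm τ hτ).1).scomp τ h1
    have h3 : HasDerivAt (fun τ : ℝ => τ • d) d τ := by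
      simpa using (hasDerivAt_id τ).smul_const d
    exact h2.add h3
  have htd : ∀ τ ∈ Icc (0:ℝ) 1, ‖c1 τ - Psi (T - s / 2 + τ * b, x)‖ ≤ e := by
    intro τ hτ
    have h1 : c1 τ - Psi (T - s / 2 + τ * b, x) = τ • d := by
      show Psi (T - s / 2 + τ * b, x) + τ • d - Psi (T - s / 2 + τ * b, x) = τ • d
      abel
    rw [h1, norm_smul, Real.norm_eq_abs, abs_of_nonneg hτ.1]
    calc τ * ‖d‖ ≤ 1 * e := mul_le_mul hτ.2 hdn (norm_nonneg _) zero_le_one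
      _ = e := one_mul e
  have hcK : ∀ τ ∈ Icc (0:ℝ) 1, c1 τ ∈ KB p0 η' q.2.1 := by
    intro τ hτ
    obtain ⟨h1, h2⟩ := htm τ hτ
    constructor
    · have h3 : c1 τ - p0 = (c1 τ - Psi (T - s / 2 + τ * b, x)) +
          (Psi (T - s / 2 + τ * b, x) - p0) := by abel
      rw [h3]
      refine (norm_add_le _ _).trans ?_
      linarith only [hee, htd τ hτ, g.bd _ h1]
    · show (c1 τ).2.1 ≤ _
      rw [hcv2]
      have h3 := g.vinc _ h1 t2 ht2 h2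
      have h4 : 0 ≤ c * (t2 - (T - s / 2 + τ * b)) := mul_nonneg g.c_pos.le (by linarith only [h2])
      linarith only [ht2v, h3, h4]
  have hcMB : ∀ τ ∈ Icc (0:ℝ) 1, c1 τ ∈ MB p0 ρ := fun τ hτ => KB_sub hηρ hqneg (hcK τ hτ)
  refine ⟨c1, c', ?_, ?_, hcd, hcK, ?_, ?_, ?_⟩
  · show Psi (T - s / 2 + 0 * b, x) + (0:ℝ) • d = _
    rw [zero_mul, add_zero, zero_smul, add_zero]
  · show Psi (T - s / 2 + 1 * b, x) + (1:ℝ) • d = q
    have : T - s / 2 + 1 * b = t2 := by rw [hb]; ring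
    rw [this, one_smul, hd]; abel
  · intro τ hτ
    obtain ⟨h1, h2⟩ := htm τ hτ
    have hzV := g.mem _ h1
    have hpert := pert_neg (K := K) (C := C) (x := Psi (T - s / 2 + τ * b, x)) (y := c1 τ)
      (a := fderiv ℝ Psi (T - s / 2 + τ * b, x) Tv) (p := b⁻¹ • d) (A := A) (e := e)
      (e' := 4 * e / s) (H.cbd hzV) (H.bd _ (hcMB τ hτ))
      (H.lip _ (hcMB τ hτ) _ (H.maps _ hzV) (hcv2 τ)) (htd τ hτ) he.le g.one (g.good _ h1)
      (g.vpos _ h1) (g.neg _ h1)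
      (by
        rw [norm_smul, norm_inv, Real.norm_eq_abs, abs_of_pos hb0]
        have h3 : b⁻¹ ≤ 4 / s := by
          rw [inv_le_comm₀ hb0 (by positivity), inv_div]
          exact hbs
        calc b⁻¹ * ‖d‖ ≤ 4 / s * e := mul_le_mul h3 hdn (norm_nonneg _) (by positivity)
          _ = 4 * e / s := by ring)
      (by positivity) (by
        show b⁻¹ * d.2.1 = 0
        rw [hd2, mul_zero]) he1 (by
        have : 176 * C ^ 2 * A * (4 * e / s) = (704 * C ^ 2 * A * e) / s := by ring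
        rw [this, div_le_one hs]
        exact he2)
    have h4 : c' τ = b • (fderiv ℝ Psi (T - s / 2 + τ * b, x) Tv + b⁻¹ • d) := by
      show b • fderiv ℝ Psi (T - s / 2 + τ * b, x) Tv + d = _
      rw [smul_add, smul_smul, mul_inv_cancel₀ hb0.ne', one_smul]
    rw [h4, gF_smul_sq]
    have h6 : 0 < b ^ 2 := by positivity
    nlinarith only [hpert, h6]
  · intro τ hτ
    have : (c' τ).2.1 = b * (fderiv ℝ Psi (T - s / 2 + τ * b, x) Tv).2.1 + d.2.1 := rfl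
    rw [this, hd2, add_zero]
    exact mul_pos hb0 (g.vpos _ (htm τ hτ).1)
  · intro τ hτ
    have h3 := g.uT _ (htm τ hτ).1
    have h4 : (c1 τ).2.2.1 = (Psi (T - s / 2 + τ * b, x)).2.2.1 + τ * d.2.2.1 := rfl
    have h5 : τ * d.2.2.1 ≤ e := by
      refine (le_abs_self _).trans ?_
      rw [abs_mul, abs_of_nonneg hτ.1]
      have h6 := (norm_P4_le.1 hdn).2.2.1
      calc τ * |d.2.2.1| ≤ 1 * e := mul_le_mul hτ.2 h6 (abs_nonneg _) zero_le_one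
        _ = e := one_mul e
    rw [h4]
    linarith only [he3, h3, h5]

/-- a point of the box near the end of a good line has a preimage near the exit point -/
lemma cover_pt (H : SHyp K G Psi Phi V R0 ρ C p0) {x : P3} {t0 T c A η : ℝ} {ps : P4}
    (g : GoodL K Psi V p0 x t0 T c A η ps) {s e η' ω δ r1 : ℝ} (hs : 0 < s) (he : 0 < e)
    (hsT : s ≤ T - t0) (hee : η + e ≤ η') (hη' : 5 * C * η' < ρ) (hηρ : η' < ρ)
    (he1 : 224 * C ^ 4 * A ^ 2 * e ≤ 1) (he2 : 704 * C ^ 2 * A * e ≤ s) (he3 : e ≤ A * s)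
    (hω : 0 < ω) (hω1 : ω ≤ 1 / 100) (hcl : CloseTo G (T, x) δ ω) (hN : NearM (G (T, x)))
    (hωs : 64 * ω * (2 * δ) ≤ s) (hr1 : r1 < δ) (hr1s : 289 * C ^ 2 * A ^ 2 * s < r1)
    (hsr : s ≤ r1) (hR : Metric.closedBall ((T, x) : P4) r1 ⊆ Metric.ball 0 R0) {q : P4}
    (hq0 : -(c * min (s / 4) (e / (2 * A))) ≤ q.2.1) (hqneg : q.2.1 < 0)
    (hq1 : |q.1 - ps.1| < e / 2) (hq2 : |q.2.2.1 - ps.2.2.1| < e / 2)
    (hq3 : |q.2.2.2 - ps.2.2.2| < e / 2) :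
    ∃ z ∈ V, Psi z = q ∧ (0 < (z - (T - s, x)).1 ∧ ∀ p, ‖p - (T, x)‖ < δ →
        G p (z - (T - s, x)) (z - (T - s, x)) < 0) ∧ InV V (T - s, x) z ∧
      ‖z - (T, x)‖ < r1 ∧ ‖Psi z - p0‖ ≤ η' := by
  obtain ⟨t2, h1, h2, h3, h4⟩ := g.time hs he hsT hq0 hqneg hq1 hq2 hq3
  obtain ⟨cu, cu', c0, c1, c2, c3, c4, c5, c6⟩ := H.pert_curve g hs he hsT hee hηρ he1 he2 he3
    hqneg h1 h2 h3 h4
  have hts : T - s ∈ Ico t0 T := ⟨by linarith only [hsT], by linarith only [hs]⟩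
  have hps1 := g.lim _ hts
  have hTs : T - (T - s) = s := by ring
  rw [hTs] at hps1
  obtain ⟨k1, k2, k3, k4⟩ := norm_P4_le.1 hps1
  simp only [Prod.fst_sub, Prod.snd_sub, g.ps0, zero_sub, abs_neg] at k1 k2 k3 k4
  obtain ⟨hq, hz, hzin, hzE⟩ := H.lift_gen (x := x) (T := T) (Cx := A) (δ := δ)
    (ω := ω) (s := s) (η := η') (vs := q.2.1) (pu := ps.2.2.1) (r1 := r1)
    hω hω1 hcl hN hs (by linarith only [hr1, hsr]) g.one hη' hηρ hqneg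
    (fun t ht => ⟨g.mem t ⟨hts.1.trans ht.1, by linarith only [hs, ht.2]⟩,
      (g.bd t ⟨hts.1.trans ht.1, by linarith only [hs, ht.2]⟩).trans (by linarith only [he, hee])⟩)
    (by linarith only [(abs_le.1 k3).2]) (by linarith only [(abs_le.1 k2).1])
    hωs hr1 hr1s hsr hR c0 c2 c3 c4 c5 c6
  rw [c1] at hq hz hzin hzE
  obtain ⟨hzV, hzq⟩ := H.Phi_mem hq
  have hqK := c3 1 ⟨zero_le_one, le_rfl⟩
  rw [c1] at hqK
  exact ⟨Phi q, hzV, hzq, hz, hzin, hzE.trans_lt hr1s, by rw [hzq]; exact hqK.1⟩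

end SHyp

end Vale.Agent.P354
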