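import Vale.Agent.P354y.LiftG

set_option maxSynthPendingDepth 3

open Set Filter Topology

namespace Vale.Agent.P354

lemma cross_bd {C A e om g11 g12 g22 X1 X2 p1 p2 av pu : ℝ} (hC : 1 ≤ C) (hA : 1 ≤ A)
    (he : 0 ≤ e) (he1 : e ≤ 1) (hom : |om| ≤ C) (hg11 : |g11| ≤ C) (hg12 : |g12| ≤ C)
    (hg22 : |g22| ≤ C) (hX1 : |X1| ≤ 2 * C * A) (hX2 : |X2| ≤ 2 * C * A) (hp1 : |p1| ≤ e)
    (hp2 : |p2| ≤ e) (hav : |av| ≤ A) (hpu : |pu| ≤ e) :
    2 * (-om * (av * pu) + g11 * (X1 * p1) + g12 * (X1 * p2 + X2 * p1) + g22 * (X2 * p2)) +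
      (g11 * (p1 * p1) + 2 * (g12 * (p1 * p2)) + g22 * (p2 * p2)) ≤ 22 * C ^ 2 * A * e := by
  have hC0 : 0 < C := by linarith only [hC]
  have hA0 : 0 < A := by linarith only [hA]
  have t0 : -om * (av * pu) ≤ C * (A * e) := by
    refine (le_abs_self _).trans ?_
    rw [abs_mul, abs_mul, abs_neg]
    gcongr
  have t1 : g11 * (X1 * p1) ≤ C * (2 * C * A * e) := by
    refine (le_abs_self _).trans ?_
    rw [abs_mul, abs_mul]; gcongr
  have t2 : g12 * (X1 * p2 + X2 * p1) ≤ C * (2 * C * A * e + 2 * C * A * e) := by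
    refine (le_abs_self _).trans ?_
    rw [abs_mul]
    gcongr
    refine (abs_add_le _ _).trans ?_
    rw [abs_mul, abs_mul]; gcongr
  have t3 : g22 * (X2 * p2) ≤ C * (2 * C * A * e) := by
    refine (le_abs_self _).trans ?_
    rw [abs_mul, abs_mul]; gcongr
  have t4 : g11 * (p1 * p1) ≤ C * (e * e) := by
    refine (le_abs_self _).trans ?_
    rw [abs_mul, abs_mul]; gcongr
  have t5 : g12 * (p1 * p2) ≤ C * (e * e) := by
    refine (le_abs_self _).trans ?_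
    rw [abs_mul, abs_mul]; gcongr
  have t6 : g22 * (p2 * p2) ≤ C * (e * e) := by
    refine (le_abs_self _).trans ?_
    rw [abs_mul, abs_mul]; gcongr
  have t7 : C * (e * e) ≤ C ^ 2 * A * e := by
    have h1 : C * (e * e) ≤ C * (1 * e) := by gcongr
    have h2 : C * (1 * e) ≤ C * (C * A * e) := by
      have : 1 ≤ C * A := by nlinarith only [hC, hA]
      gcongr
    calc C * (e * e) ≤ C * (C * A * e) := h1.trans h2
      _ = _ := by ring
  have t8 : C * (A * e) ≤ C ^ 2 * A * e := by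
    have : C ≤ C ^ 2 := (powC hC).1
    calc C * (A * e) = C * A * e := by ring
      _ ≤ C ^ 2 * A * e := by gcongr
  linarith only [t0, t1, t2, t3, t4, t5, t6, t7, t8]

/-- a small perturbation of a timelike vector is timelike -/
lemma pert_neg {K : Coef} {C : ℝ} {x y a p : P4} {A e e' : ℝ} (hx : CBd K C x) (hy : CBd K C y)
    (hlip : LipPair K C y x) (hd : ‖y - x‖ ≤ e) (he : 0 ≤ e) (hA : 1 ≤ A) (ha : ‖a‖ ≤ A)
    (hav : 0 < a.2.1) (hneg : K.gF x a a ≤ -(1 / 2)) (hp : ‖p‖ ≤ e') (he' : 0 ≤ e')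
    (hpv : p.2.1 = 0) (h1 : 224 * C ^ 4 * A ^ 2 * e ≤ 1) (h2 : 176 * C ^ 2 * A * e' ≤ 1) :
    K.gF y (a + p) (a + p) < 0 := by
  have hC := hx.one_le
  have hC0 := hx.C_pos
  have hau := hx.u_pos (by linarith only [hneg] : K.gF x a a < 0) hav
  have hC4 : 1 ≤ C ^ 4 := one_le_pow₀ hC
  have hA2 : 1 ≤ A ^ 2 := one_le_pow₀ hA
  have he1 : e ≤ 1 := by
    have h3 : 1 ≤ 224 * C ^ 4 * A ^ 2 := by nlinarith only [hA2, hC4]
    nlinarith only [h1, h3]
  have he1' : e' ≤ 1 := by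
    have h4 : 1 ≤ C ^ 2 := one_le_pow₀ hC
    have h5 : 1 ≤ C ^ 2 * A := by nlinarith only [h4, hA]
    have h3 : 1 ≤ 176 * C ^ 2 * A := by linarith only [h5]
    nlinarith only [h2, h5]
  have hn : C * ‖y - x‖ ≤ C * e := by gcongr
  have hX : ∀ s s' t : ℝ, |s - s'| ≤ C * ‖y - x‖ →
      |(t - s * a.2.1) - (t - s' * a.2.1)| ≤ C * e * a.2.1 := by
    intro s s' t h
    have : (t - s * a.2.1) - (t - s' * a.2.1) = -((s - s') * a.2.1) := by ring
    rw [this, abs_neg, abs_mul, abs_of_pos hav]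
    exact mul_le_mul_of_nonneg_right (h.trans hn) hav.le
  have hhat : K.h1 x a ^ 2 + K.h2 x a ^ 2 ≤ 2 * C ^ 2 * (a.2.1 * a.2.2.1) := by
    rcases hx.hat_le (by linarith only [hneg] : K.gF x a a ≤ 0) with h | h
    · exact h
    · have := hx.uv_pos (by linarith only [hneg] : K.gF x a a < 0)
      linarith only [h, this]
  have herr := err_est (C := C) (e := e) (lam := K.om y - K.om x)
    (D1 := Qg K y (K.h1 y a) (K.h2 y a)) (D2 := Qg K x (K.h1 x a) (K.h2 x a))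
    (g11 := K.g11 y) (g12 := K.g12 y) (g22 := K.g22 y)
    (k11 := K.g11 x) (k12 := K.g12 x) (k22 := K.g22 x) (X1 := K.h1 y a) (X2 := K.h2 y a)
    (Y1 := K.h1 x a) (Y2 := K.h2 x a) (p := a.2.1) (U := a.2.2.1) hC he he1 hav.le
    hy.g11_hi hy.g12_hi hy.g22_hi (hlip.g11.trans hn) (hlip.g12.trans hn) (hlip.g22.trans hn)
    (hX _ _ _ hlip.s1) (hX _ _ _ hlip.s2) hhat hau.le (hlip.om.trans hn) rfl rfl
  obtain ⟨a1, a2, a3, a4⟩ := norm_P4_le.1 ha
  obtain ⟨p1, p2, p3, p4⟩ := norm_P4_le.1 hp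
  have b1 : a.2.1 * a.2.2.1 + a.2.1 ^ 2 ≤ 2 * A ^ 2 := by
    have h3 : a.2.1 ≤ A := (le_abs_self _).trans a2
    have h4 : a.2.2.1 ≤ A := (le_abs_self _).trans a3
    have h5 : a.2.1 * a.2.2.1 ≤ A * A := by gcongr
    have h6 : a.2.1 ^ 2 ≤ A ^ 2 := by gcongr
    linarith only [h5, h6]
  have h3 : K.gF y a a ≤ K.gF x a a + 1 / 8 := by
    rw [gF_diag, gF_diag]
    have h4 := (abs_le.1 herr).1
    have h5 : e * (14 * C ^ 4) * (a.2.1 * a.2.2.1 + a.2.1 ^ 2) ≤ 1 / 8 := by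
      calc e * (14 * C ^ 4) * (a.2.1 * a.2.2.1 + a.2.1 ^ 2) ≤ e * (14 * C ^ 4) * (2 * A ^ 2) := by
            gcongr
        _ = (224 * C ^ 4 * A ^ 2 * e) / 8 := by ring
        _ ≤ 1 / 8 := by linarith only [h1]
    linarith only [h4, h5]
  have hh1 : |K.h1 y a| ≤ 2 * C * A := by
    unfold Coef.h1
    refine (abs_sub _ _).trans ?_
    rw [abs_mul]
    have : |K.s1 y| * |a.2.1| ≤ C * A := mul_le_mul hy.s1_hi a2 (abs_nonneg _) hC0.le
    nlinarith only [hC, a1, this, hA]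
  have hh2 : |K.h2 y a| ≤ 2 * C * A := by
    unfold Coef.h2
    refine (abs_sub _ _).trans ?_
    rw [abs_mul]
    have : |K.s2 y| * |a.2.1| ≤ C * A := mul_le_mul hy.s2_hi a2 (abs_nonneg _) hC0.le
    nlinarith only [hC, a4, this, hA]
  have hom : |K.om y| ≤ C := by
    rw [abs_of_pos hy.om_pos]; exact hy.om_hi
  have hcross := cross_bd hC hA he' he1' hom hy.g11_hi hy.g12_hi hy.g22_hi hh1 hh2 p1 p4 a2 p3
  have hfin : K.gF y (a + p) (a + p) = K.gF y a a +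
      (2 * (-K.om y * (a.2.1 * p.2.2.1) + K.g11 y * (K.h1 y a * p.1) +
        K.g12 y * (K.h1 y a * p.2.2.2 + K.h2 y a * p.1) + K.g22 y * (K.h2 y a * p.2.2.2)) +
      (K.g11 y * (p.1 * p.1) + 2 * (K.g12 y * (p.1 * p.2.2.2)) +
        K.g22 y * (p.2.2.2 * p.2.2.2))) := by
    simp only [Coef.gF, Coef.h1, Coef.h2, Prod.fst_add, Prod.snd_add, hpv]
    ring
  rw [hfin]
  have h6 : 22 * C ^ 2 * A * e' ≤ 1 / 8 := by linarith only [h2]
  linarith only [hneg, h2, h3, hcross]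

end Vale.Agent.P354
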