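import Vale.Agent.P354.SLine

set_option maxSynthPendingDepth 3

open Set Filter Topology

namespace Vale.Agent.P354

/-- the segment from `a` to `b` is future timelike -/
def TSeg (G : P4 → P4 →L[ℝ] P4 →L[ℝ] ℝ) (a b : P4) : Prop :=
  (∀ τ ∈ Icc (0:ℝ) 1, G (a + τ • (b - a)) (b - a) (b - a) < 0) ∧ 0 < (b - a).1

namespace SHyp

variable {K : Coef} {G : P4 → P4 →L[ℝ] P4 →L[ℝ] ℝ} {Psi Phi : P4 → P4} {V : Set P4}
  {R0 ρ C : ℝ} {p0 : P4}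

lemma fc_time (H : SHyp K G Psi Phi V R0 ρ C p0) {z a : P4} (hz : z ∈ V)
    (ha : G z a a < 0) (h0 : 0 < a.1) : FC K C (Psi z) (fderiv ℝ Psi z a) := by
  have h5 := H.v_pos hz ha h0
  rw [H.iso.iso z hz] at ha
  exact H.fc_of_timelike (H.maps z hz) ha h5

lemma rel_segG (H : SHyp K G Psi Phi V R0 ρ C p0) {a b : P4} (hab : TSeg G a b)
    (hin : InV V a b) {τ1 τ2 : ℝ} (h0 : 0 ≤ τ1) (h12 : τ1 ≤ τ2) (h2 : τ2 ≤ 1) :
    Rel C (Psi (a + τ1 • (b - a))) (Psi (a + τ2 • (b - a))) := by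
  have hin' : ∀ τ ∈ Icc τ1 τ2, a + τ • (b - a) ∈ V :=
    fun τ hτ => hin τ ⟨h0.trans hτ.1, hτ.2.trans h2⟩
  exact rel_of_curve (K := K) (ν := fun τ => Psi (a + τ • (b - a)))
    (ν' := fun τ => fderiv ℝ Psi (a + τ • (b - a)) (b - a)) h12
    (fun τ hτ => H.hasDerivAt_seg (hin' τ hτ)) (fun τ hτ => H.cbd (hin' τ hτ))
    (fun τ hτ => H.fc_time (hin' τ hτ) (hab.1 τ ⟨h0.trans hτ.1, hτ.2.trans h2⟩) hab.2)

lemma rel_endsG (H : SHyp K G Psi Phi V R0 ρ C p0) {a b : P4} (hab : TSeg G a b)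
    (hin : InV V a b) : Rel C (Psi a) (Psi b) := by
  have := H.rel_segG hab hin le_rfl zero_le_one le_rfl
  simpa using this

/-- points of future timelike segments between good points stay in a compact set -/
lemma seg_mem_KBG (H : SHyp K G Psi Phi V R0 ρ C p0) {η vs : ℝ} {a b : P4} (hab : TSeg G a b)
    (hin : InV V a b) (ha : ‖Psi a - p0‖ ≤ η) (hb : ‖Psi b - p0‖ ≤ η)
    (hbv : (Psi b).2.1 ≤ vs) {τ : ℝ} (hτ : τ ∈ Icc (0:ℝ) 1) :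
    Psi (a + τ • (b - a)) ∈ KB p0 (5 * C * η) vs := by
  have hbneg : (Psi b).2.1 < 0 := (H.maps b hin.right).2
  have r1 := H.rel_segG hab hin le_rfl hτ.1 hτ.2
  have r2 := H.rel_segG hab hin hτ.1 hτ.2 le_rfl
  simp only [zero_smul, add_zero, one_smul, add_sub_cancel] at r1 r2
  have := confine H.one_le H.p0v r1 r2 ha hb hbneg
  exact ⟨this.1, this.2.trans hbv⟩

/-- moving the ends of a future timelike segment -/
lemma pushG (H : SHyp K G Psi Phi V R0 ρ C p0) {η vs : ℝ} (hη : 5 * C * η < ρ) (hvs : vs < 0)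
    {a b : ℝ → P4} (ha : Continuous a) (hb : Continuous b)
    (hab : ∀ l ∈ Icc (0:ℝ) 1, TSeg G (a l) (b l))
    (haV : ∀ l ∈ Icc (0:ℝ) 1, a l ∈ V ∧ ‖Psi (a l) - p0‖ ≤ η)
    (hbV : ∀ l ∈ Icc (0:ℝ) 1, b l ∈ V ∧ ‖Psi (b l) - p0‖ ≤ η ∧ (Psi (b l)).2.1 ≤ vs)
    (h0 : InV V (a 0) (b 0)) : ∀ l ∈ Icc (0:ℝ) 1, InV V (a l) (b l) := by
  obtain ⟨F, hF, hVF⟩ := H.cl _ (KB_compact p0 (5 * C * η) vs) (KB_sub hη hvs)
  set S : Set ℝ := {l | InV V (a l) (b l)} with hS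
  have hset : S ∩ Icc 0 1 = {l | l ∈ Icc (0:ℝ) 1 ∧ ∀ τ ∈ Icc (0:ℝ) 1,
      a l + τ • (b l - a l) ∈ F} := by
    ext l
    constructor
    · rintro ⟨h1, hl⟩
      refine ⟨hl, fun τ hτ => ?_⟩
      have h3 := H.seg_mem_KBG (hab l hl) h1 (haV l hl).2 (hbV l hl).2.1 (hbV l hl).2.2 hτ
      have h4 : a l + τ • (b l - a l) ∈ V ∩ Psi ⁻¹' KB p0 (5 * C * η) vs := ⟨h1 τ hτ, h3⟩
      rw [hVF] at h4
      exact h4.2
    · rintro ⟨hl, h⟩
      refine ⟨fun τ hτ => ?_, hl⟩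
      have h4 : a l + τ • (b l - a l) ∈ Metric.ball (0 : P4) R0 ∩ F :=
        ⟨ball_seg (H.V_sub (haV l hl).1) (H.V_sub (hbV l hl).1) hτ, h τ hτ⟩
      rw [← hVF] at h4
      exact h4.1
  have hclosed : IsClosed (S ∩ Icc 0 1) := by
    rw [hset]
    have : {l : ℝ | l ∈ Icc (0:ℝ) 1 ∧ ∀ τ ∈ Icc (0:ℝ) 1, a l + τ • (b l - a l) ∈ F} =
        Icc (0:ℝ) 1 ∩ ⋂ τ ∈ Icc (0:ℝ) 1, (fun l => a l + τ • (b l - a l)) ⁻¹' F := by
      ext l; simp only [mem_Icc, and_imp, mem_ofPred_eq, mem_inter_iff, mem_iInter, mem_preimage]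
    rw [this]
    refine isClosed_Icc.inter (isClosed_biInter fun τ _ => ?_)
    exact hF.preimage (by fun_prop)
  have key : Icc (0:ℝ) 1 ⊆ S := by
    refine hclosed.Icc_subset_of_forall_mem_nhdsWithin h0 ?_
    rintro l ⟨h1, hl⟩
    refine mem_nhdsWithin_of_mem_nhds ?_
    filter_upwards [tube H.iso.isOpen ha hb h1] with l' k1
    exact k1
  exact fun l hl => key hl

end SHyp

end Vale.Agent.P354
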